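import Vale.Agent.P236JM.T3bn0
import Vale.Agent.P236JM.T3bn1

/-!
# P236JM : the data of a group of columns (generated)
-/

set_option maxRecDepth 100000

namespace Vale.Agent.P236JM

open Vale.Agent.P236JW

noncomputable def up3b : D4 := (D4.cons z3b_0
 (D4.cons z3b_1
 (D4.cons z3b_2
 (D4.cons z3b_3
 (D4.cons z3b_4
 (D4.cons z3b_5
 (D4.cons z3b_6
 (D4.cons z3b_7
 (D4.cons z3b_8
 (D4.cons z3b_9
 (D4.cons z3b_10
 (D4.cons z3b_11
 (D4.cons z3b_12
 (D4.cons z3b_13
 (D4.cons z3b_14
 (D4.cons z3b_15
 (D4.cons z3b_16
 (D4.cons z3b_17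
 (D4.cons z3b_18
 (D4.cons z3b_19
 (D4.cons z3b_20
 (D4.cons z3b_21
 (D4.cons z3b_22
 (D4.cons z3b_23
 (D4.cons z3b_24
 (D4.cons z3b_25
 (D4.cons z3b_26
 (D4.cons z3b_27
 (D4.cons z3b_28
 (D4.cons z3b_29
 (D4.cons z3b_30
 D4.nil)))))))))))))))))))))))))))))))

noncomputable def bs3b : Bs := ⟨(nat_lit 90),
  (nat_lit 69),
  (nat_lit 0x304b2355483b562e492154473a552d4820534639542c471f524538532b461e524538532b461e594c3f5a324d254018594c3f5a324d254018574a3d58304b233e1653463954),
  up3b,
  (nat_lit 0x5a5a58565454524845403f3d362e2d2422201e1e1c181715120f0c0a080604),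
  (nat_lit 316),
  (nat_lit 0x1e1d1c1b1a191817171717161616161515151515151514141414141414131313131313131212121212121211111111111111111111101010101010101010100f0f0f0f0f0f0f0f0f0f0f0f0f0e0e0e0e0e0e0e0e0e0e0e0e0e0d0d0d0d0d0d0d0d0d0d0d0d0d0c0c0c0c0c0c0c0c0c0c0c0c0c0b0b0b0b0b0b0b0b0b0b0b0b0b0a0a0a0a0a0a0a0a0a0a0a0a0a09090909090909090909090909090909080808080808080808080808080808080707070707070707070707070707070706060606060606060606060606060606050505050505050505050505050505050404040404040404040404040404040404040403030303030303030303030303030303030303020202020202020202020202020202020202020101010101010101010101010101010101010100000000000000000000000000000000000000),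
  (nat_lit 0x3020100030201000605040302010006050403020100060504030201000605040302010009080706050403020100090807060504030201000c0b0a090807060504030201000c0b0a090807060504030201000c0b0a090807060504030201000c0b0a090807060504030201000c0b0a090807060504030201000c0b0a090807060504030201000f0e0d0c0b0a090807060504030201000f0e0d0c0b0a090807060504030201000f0e0d0c0b0a090807060504030201000f0e0d0c0b0a090807060504030201000f0e0d0c0b0a090807060504030201001211100f0e0d0c0b0a090807060504030201001211100f0e0d0c0b0a090807060504030201001211100f0e0d0c0b0a090807060504030201001211100f0e0d0c0b0a090807060504030201001211100f0e0d0c0b0a09080706050403020100)⟩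

end Vale.Agent.P236JM
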