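import Vale.Agent.P236JM.T4an0
import Vale.Agent.P236JM.T4an1

/-!
# P236JM : the data of a group of columns (generated)
-/

set_option maxRecDepth 100000

namespace Vale.Agent.P236JM

open Vale.Agent.P236JW

noncomputable def up4a : D4 := (D4.cons z4a_0
 (D4.cons z4a_1
 (D4.cons z4a_2
 (D4.cons z4a_3
 (D4.cons z4a_4
 (D4.cons z4a_5
 (D4.cons z4a_6
 (D4.cons z4a_7
 (D4.cons z4a_8
 (D4.cons z4a_9
 (D4.cons z4a_10
 (D4.cons z4a_11
 (D4.cons z4a_12
 (D4.cons z4a_13
 (D4.cons z4a_14
 (D4.cons z4a_15
 (D4.cons z4a_16
 (D4.cons z4a_17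
 (D4.cons z4a_18
 (D4.cons z4a_19
 (D4.cons z4a_20
 (D4.cons z4a_21
 (D4.cons z4a_22
 (D4.cons z4a_23
 (D4.cons z4a_24
 (D4.cons z4a_25
 (D4.cons z4a_26
 (D4.cons z4a_27
 (D4.cons z4a_28
 (D4.cons z4a_29
 (D4.cons z4a_30
 (D4.cons z4a_31
 (D4.cons z4a_32
 (D4.cons z4a_33
 (D4.cons z4a_34
 (D4.cons z4a_35
 (D4.cons z4a_36
 (D4.cons z4a_37
 (D4.cons z4a_38
 (D4.cons z4a_39
 (D4.cons z4a_40
 D4.nil)))))))))))))))))))))))))))))))))))))))))

noncomputable def bs4a : Bs := ⟨(nat_lit 90),
  (nat_lit 70),
  (nat_lit 0x483b562e49213c14534639542c471f3a125043365129441c370f4e41344f27421a350d594c3f5a324d254018330b574a3d58304b233e1659310955483b562e49213c14572f07),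
  up4a,
  (nat_lit 0x5a5a5958575655545249484846454240403e3a36302e2a25242321201f1e1e18181612100e0c0a0806),
  (nat_lit 374),
  (nat_lit 0x2827262524232221201f1f1f1f1e1e1e1e1d1d1d1d1c1c1c1c1b1b1b1b1a1a1a1a191919191919191818181818181817171717171717161616161616161515151515151514141414141414141414131313131313131313131212121212121212121211111111111111111111111111101010101010101010101010100f0f0f0f0f0f0f0f0f0f0f0f0f0e0e0e0e0e0e0e0e0e0e0e0e0e0d0d0d0d0d0d0d0d0d0d0d0d0d0c0c0c0c0c0c0c0c0c0c0c0c0c0b0b0b0b0b0b0b0b0b0b0b0b0b0a0a0a0a0a0a0a0a0a0a0a0a0a09090909090909090909090909090909080808080808080808080808080808080707070707070707070707070707070706060606060606060606060606060606050505050505050505050505050505050404040404040404040404040404040403030303030303030303030303030303030303020202020202020202020202020202020202020101010101010101010101010101010101010100000000000000000000000000000000000000),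
  (nat_lit 0x3020100030201000302010003020100030201000302010006050403020100060504030201000605040302010006050403020100060504030201000908070605040302010009080706050403020100090807060504030201000c0b0a090807060504030201000c0b0a090807060504030201000c0b0a090807060504030201000c0b0a090807060504030201000c0b0a090807060504030201000c0b0a090807060504030201000c0b0a090807060504030201000c0b0a090807060504030201000f0e0d0c0b0a090807060504030201000f0e0d0c0b0a090807060504030201000f0e0d0c0b0a090807060504030201000f0e0d0c0b0a090807060504030201000f0e0d0c0b0a090807060504030201000f0e0d0c0b0a090807060504030201001211100f0e0d0c0b0a090807060504030201001211100f0e0d0c0b0a090807060504030201001211100f0e0d0c0b0a090807060504030201001211100f0e0d0c0b0a09080706050403020100)⟩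

end Vale.Agent.P236JM
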