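import Vale.Agent.P236JM.T5bn0
import Vale.Agent.P236JM.T5bn1

/-!
# P236JM : the data of a group of columns (generated)
-/

set_option maxRecDepth 100000

namespace Vale.Agent.P236JM

open Vale.Agent.P236JW

noncomputable def up5b : D4 := (D4.cons z5b_0
 (D4.cons z5b_1
 (D4.cons z5b_2
 (D4.cons z5b_3
 (D4.cons z5b_4
 (D4.cons z5b_5
 (D4.cons z5b_6
 (D4.cons z5b_7
 (D4.cons z5b_8
 (D4.cons z5b_9
 (D4.cons z5b_10
 (D4.cons z5b_11
 (D4.cons z5b_12
 (D4.cons z5b_13
 (D4.cons z5b_14
 (D4.cons z5b_15
 (D4.cons z5b_16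
 (D4.cons z5b_17
 (D4.cons z5b_18
 (D4.cons z5b_19
 (D4.cons z5b_20
 (D4.cons z5b_21
 (D4.cons z5b_22
 (D4.cons z5b_23
 (D4.cons z5b_24
 (D4.cons z5b_25
 (D4.cons z5b_26
 (D4.cons z5b_27
 (D4.cons z5b_28
 (D4.cons z5b_29
 (D4.cons z5b_30
 (D4.cons z5b_31
 (D4.cons z5b_32
 (D4.cons z5b_33
 (D4.cons z5b_34
 (D4.cons z5b_35
 (D4.cons z5b_36
 (D4.cons z5b_37
 (D4.cons z5b_38
 (D4.cons z5b_39
 (D4.cons z5b_40
 (D4.cons z5b_41
 (D4.cons z5b_42
 (D4.cons z5b_43
 (D4.cons z5b_44
 D4.nil)))))))))))))))))))))))))))))))))))))))))))))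

noncomputable def bs5b : Bs := ⟨(nat_lit 90),
  (nat_lit 62),
  (nat_lit 0x4e41344f275a4d40334e26584b3e59314c2456493c572f4a2255483b562e49214f42355028431b5a4d40334e264119584b3e59314c243f1756493c572f4a),
  up5b,
  (nat_lit 0x5a59595857575555524e4c494847464644424240403e3732302d2a2725242321211f1e1a181614120f0d0b0907),
  (nat_lit 381),
  (nat_lit 0x2c2b2a292827262524232222222221212121202020201f1f1f1f1e1e1e1e1d1d1d1d1c1c1c1c1b1b1b1b1a1a1a1a191919191919191818181818181817171717171717161616161616161515151515151515151514141414141414141414131313131313131313131212121212121212121211111111111111111111101010101010101010101010100f0f0f0f0f0f0f0f0f0f0f0f0f0e0e0e0e0e0e0e0e0e0e0e0e0e0d0d0d0d0d0d0d0d0d0d0d0d0d0c0c0c0c0c0c0c0c0c0c0c0c0c0b0b0b0b0b0b0b0b0b0b0b0b0b0a0a0a0a0a0a0a0a0a0a0a0a0a09090909090909090909090909080808080808080808080808080808080707070707070707070707070707070706060606060606060606060606060606050505050505050505050505050505050404040404040404040404040404040403030303030303030303030303030303020202020202020202020202020202020202020101010101010101010101010101010101010100000000000000000000000000000000000000),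
  (nat_lit 0x302010003020100030201000302010003020100030201000302010003020100030201000605040302010006050403020100060504030201000605040302010009080706050403020100090807060504030201000908070605040302010009080706050403020100090807060504030201000c0b0a090807060504030201000c0b0a090807060504030201000c0b0a090807060504030201000c0b0a090807060504030201000c0b0a090807060504030201000c0b0a090807060504030201000c0b0a090807060504030201000c0b0a090807060504030201000f0e0d0c0b0a090807060504030201000f0e0d0c0b0a090807060504030201000f0e0d0c0b0a090807060504030201000f0e0d0c0b0a090807060504030201000f0e0d0c0b0a090807060504030201000f0e0d0c0b0a090807060504030201001211100f0e0d0c0b0a090807060504030201001211100f0e0d0c0b0a090807060504030201001211100f0e0d0c0b0a09080706050403020100)⟩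

end Vale.Agent.P236JM
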