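import Vale.Agent.P236JM.T5cn0

/-!
# P236JM : the data of a group of columns (generated)
-/

set_option maxRecDepth 100000

namespace Vale.Agent.P236JM

open Vale.Agent.P236JW

noncomputable def up5c : D4 := (D4.cons z5c_0
 (D4.cons z5c_1
 (D4.cons z5c_2
 (D4.cons z5c_3
 (D4.cons z5c_4
 (D4.cons z5c_5
 (D4.cons z5c_6
 (D4.cons z5c_7
 (D4.cons z5c_8
 (D4.cons z5c_9
 (D4.cons z5c_10
 (D4.cons z5c_11
 (D4.cons z5c_12
 (D4.cons z5c_13
 (D4.cons z5c_14
 (D4.cons z5c_15
 (D4.cons z5c_16
 (D4.cons z5c_17
 (D4.cons z5c_18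
 (D4.cons z5c_19
 (D4.cons z5c_20
 (D4.cons z5c_21
 (D4.cons z5c_22
 (D4.cons z5c_23
 (D4.cons z5c_24
 (D4.cons z5c_25
 (D4.cons z5c_26
 (D4.cons z5c_27
 (D4.cons z5c_28
 (D4.cons z5c_29
 (D4.cons z5c_30
 (D4.cons z5c_31
 (D4.cons z5c_32
 (D4.cons z5c_33
 (D4.cons z5c_34
 (D4.cons z5c_35
 (D4.cons z5c_36
 (D4.cons z5c_37
 (D4.cons z5c_38
 (D4.cons z5c_39
 (D4.cons z5c_40
 (D4.cons z5c_41
 (D4.cons z5c_42
 (D4.cons z5c_43
 (D4.cons z5c_44
 D4.nil)))))))))))))))))))))))))))))))))))))))))))))

noncomputable def bs5c : Bs := ⟨(nat_lit 90),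
  (nat_lit 62),
  (nat_lit 0x5a595958575554524f4e594c594c574a56495548544753465245514450434f424e41594c3f574a3d5144375a4d4033584b3e593154473a552d534639542c),
  up5c,
  (nat_lit 0x5a59595857575555524e4c494847464644424240403e3732302d2a2725242321211f1e1a181614120f0d0b0907),
  (nat_lit 381),
  (nat_lit 0x2c2b2a292827262524232222222221212121202020201f1f1f1f1e1e1e1e1d1d1d1d1c1c1c1c1b1b1b1b1a1a1a1a191919191919191818181818181817171717171717161616161616161515151515151515151514141414141414141414131313131313131313131212121212121212121211111111111111111111101010101010101010101010100f0f0f0f0f0f0f0f0f0f0f0f0f0e0e0e0e0e0e0e0e0e0e0e0e0e0d0d0d0d0d0d0d0d0d0d0d0d0d0c0c0c0c0c0c0c0c0c0c0c0c0c0b0b0b0b0b0b0b0b0b0b0b0b0b0a0a0a0a0a0a0a0a0a0a0a0a0a09090909090909090909090909080808080808080808080808080808080707070707070707070707070707070706060606060606060606060606060606050505050505050505050505050505050404040404040404040404040404040403030303030303030303030303030303020202020202020202020202020202020202020101010101010101010101010101010101010100000000000000000000000000000000000000),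
  (nat_lit 0x302010003020100030201000302010003020100030201000302010003020100030201000605040302010006050403020100060504030201000605040302010009080706050403020100090807060504030201000908070605040302010009080706050403020100090807060504030201000c0b0a090807060504030201000c0b0a090807060504030201000c0b0a090807060504030201000c0b0a090807060504030201000c0b0a090807060504030201000c0b0a090807060504030201000c0b0a090807060504030201000c0b0a090807060504030201000f0e0d0c0b0a090807060504030201000f0e0d0c0b0a090807060504030201000f0e0d0c0b0a090807060504030201000f0e0d0c0b0a090807060504030201000f0e0d0c0b0a090807060504030201000f0e0d0c0b0a090807060504030201001211100f0e0d0c0b0a090807060504030201001211100f0e0d0c0b0a090807060504030201001211100f0e0d0c0b0a09080706050403020100)⟩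

end Vale.Agent.P236JM
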