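import Vale.Agent.P236JM.T6bn0
import Vale.Agent.P236JM.T6bn1

/-!
# P236JM : the data of a group of columns (generated)
-/

set_option maxRecDepth 100000

namespace Vale.Agent.P236JM

open Vale.Agent.P236JW

noncomputable def up6b : D4 := (D4.cons z6b_0
 (D4.cons z6b_1
 (D4.cons z6b_2
 (D4.cons z6b_3
 (D4.cons z6b_4
 (D4.cons z6b_5
 (D4.cons z6b_6
 (D4.cons z6b_7
 (D4.cons z6b_8
 (D4.cons z6b_9
 (D4.cons z6b_10
 (D4.cons z6b_11
 (D4.cons z6b_12
 (D4.cons z6b_13
 (D4.cons z6b_14
 (D4.cons z6b_15
 (D4.cons z6b_16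
 (D4.cons z6b_17
 (D4.cons z6b_18
 (D4.cons z6b_19
 (D4.cons z6b_20
 (D4.cons z6b_21
 (D4.cons z6b_22
 (D4.cons z6b_23
 (D4.cons z6b_24
 (D4.cons z6b_25
 (D4.cons z6b_26
 (D4.cons z6b_27
 (D4.cons z6b_28
 (D4.cons z6b_29
 (D4.cons z6b_30
 (D4.cons z6b_31
 (D4.cons z6b_32
 (D4.cons z6b_33
 (D4.cons z6b_34
 (D4.cons z6b_35
 (D4.cons z6b_36
 (D4.cons z6b_37
 (D4.cons z6b_38
 (D4.cons z6b_39
 (D4.cons z6b_40
 (D4.cons z6b_41
 (D4.cons z6b_42
 (D4.cons z6b_43
 D4.nil))))))))))))))))))))))))))))))))))))))))))))

noncomputable def bs6b : Bs := ⟨(nat_lit 90),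
  (nat_lit 79),
  (nat_lit 0x5a5a595855545352504f4e5a4d584b564956495548544753465245504350434e41594c3f584b3e54473a5245385a4d403354473a552d54473a552d4f423550285a4d40334e26514437522a451d4f42),
  up6b,
  (nat_lit 0x5a595958575554524f4e4c4c4a4948474645444342413f3d3733312d2c27262422211b19171513110f0d0b09),
  (nat_lit 344),
  (nat_lit 0x2b2a292827262524232221212121202020201f1f1f1f1e1e1e1e1d1d1d1d1c1c1c1c1b1b1b1b1a1a1a1a191919191818181817171717161616161515151515151514141414141414131313131313131212121212121212121211111111111111111111101010101010101010100f0f0f0f0f0f0f0f0f0f0e0e0e0e0e0e0e0e0e0e0d0d0d0d0d0d0d0d0d0d0d0d0d0c0c0c0c0c0c0c0c0c0c0c0c0c0b0b0b0b0b0b0b0b0b0b0b0b0b0a0a0a0a0a0a0a0a0a0a0a0a0a09090909090909090909090909080808080808080808080808080808080707070707070707070707070707070706060606060606060606060606060606050505050505050505050505050505050404040404040404040404040404040403030303030303030303030303030303020202020202020202020202020202020101010101010101010101010101010101010100000000000000000000000000000000000000),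
  (nat_lit 0x3020100030201000302010003020100030201000302010003020100030201000302010003020100030201000302010006050403020100060504030201000605040302010009080706050403020100090807060504030201000908070605040302010009080706050403020100090807060504030201000c0b0a090807060504030201000c0b0a090807060504030201000c0b0a090807060504030201000c0b0a090807060504030201000c0b0a090807060504030201000f0e0d0c0b0a090807060504030201000f0e0d0c0b0a090807060504030201000f0e0d0c0b0a090807060504030201000f0e0d0c0b0a090807060504030201000f0e0d0c0b0a090807060504030201000f0e0d0c0b0a090807060504030201000f0e0d0c0b0a090807060504030201001211100f0e0d0c0b0a090807060504030201001211100f0e0d0c0b0a09080706050403020100)⟩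

end Vale.Agent.P236JM
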