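import Vale.Agent.P236JM.T8an0

/-!
# P236JM : the data of a group of columns (generated)
-/

set_option maxRecDepth 100000

namespace Vale.Agent.P236JM

open Vale.Agent.P236JW

noncomputable def up8a : D4 := (D4.cons z8a_0
 (D4.cons z8a_1
 (D4.cons z8a_2
 (D4.cons z8a_3
 (D4.cons z8a_4
 (D4.cons z8a_5
 (D4.cons z8a_6
 (D4.cons z8a_7
 (D4.cons z8a_8
 (D4.cons z8a_9
 (D4.cons z8a_10
 (D4.cons z8a_11
 (D4.cons z8a_12
 (D4.cons z8a_13
 (D4.cons z8a_14
 (D4.cons z8a_15
 (D4.cons z8a_16
 (D4.cons z8a_17
 (D4.cons z8a_18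
 (D4.cons z8a_19
 (D4.cons z8a_20
 (D4.cons z8a_21
 (D4.cons z8a_22
 (D4.cons z8a_23
 (D4.cons z8a_24
 (D4.cons z8a_25
 (D4.cons z8a_26
 (D4.cons z8a_27
 (D4.cons z8a_28
 (D4.cons z8a_29
 (D4.cons z8a_30
 (D4.cons z8a_31
 (D4.cons z8a_32
 (D4.cons z8a_33
 (D4.cons z8a_34
 (D4.cons z8a_35
 (D4.cons z8a_36
 (D4.cons z8a_37
 (D4.cons z8a_38
 (D4.cons z8a_39
 D4.nil))))))))))))))))))))))))))))))))))))))))

noncomputable def bs8a : Bs := ⟨(nat_lit 90),
  (nat_lit 78),
  (nat_lit 0x2d4820524538532b461e5043365129441c4e41344f27421a594c3f5a324d25401856493c572f4a223d1554473a552d48203b13524538532b461e39115043365129441c370f4e41344f27421a350d),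
  up8a,
  (nat_lit 0x5a5a585555535351514f4d4b48474644424240403f3e3c3a3938332e2d291e1c1a18161412100e0c),
  (nat_lit 292),
  (nat_lit 0x27262524232221201f1e1d1d1d1d1c1c1c1c1b1b1b1b1a1a1a1a191919191818181817171717161616161515151515151514141414141414131313131313131212121212121211111111111111101010101010100f0f0f0f0f0f0f0e0e0e0e0e0e0e0d0d0d0d0d0d0d0d0d0d0c0c0c0c0c0c0c0c0c0c0b0b0b0b0b0b0b0b0b0b0a0a0a0a0a0a0a0a0a0a09090909090909090909090909080808080808080808080808080707070707070707070707070706060606060606060606060606060606050505050505050505050505050505050404040404040404040404040404040403030303030303030303030303030303020202020202020202020202020202020101010101010101010101010101010100000000000000000000000000000000000000),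
  (nat_lit 0x3020100030201000302010003020100030201000302010003020100030201000605040302010006050403020100060504030201000605040302010006050403020100060504030201000605040302010006050403020100090807060504030201000908070605040302010009080706050403020100090807060504030201000c0b0a090807060504030201000c0b0a090807060504030201000c0b0a090807060504030201000f0e0d0c0b0a090807060504030201000f0e0d0c0b0a090807060504030201000f0e0d0c0b0a090807060504030201000f0e0d0c0b0a090807060504030201000f0e0d0c0b0a090807060504030201000f0e0d0c0b0a090807060504030201001211100f0e0d0c0b0a09080706050403020100)⟩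

end Vale.Agent.P236JM
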