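import Vale.Agent.P236JM.T8bn0

/-!
# P236JM : the data of a group of columns (generated)
-/

set_option maxRecDepth 100000

namespace Vale.Agent.P236JM

open Vale.Agent.P236JW

noncomputable def up8b : D4 := (D4.cons z8b_0
 (D4.cons z8b_1
 (D4.cons z8b_2
 (D4.cons z8b_3
 (D4.cons z8b_4
 (D4.cons z8b_5
 (D4.cons z8b_6
 (D4.cons z8b_7
 (D4.cons z8b_8
 (D4.cons z8b_9
 (D4.cons z8b_10
 (D4.cons z8b_11
 (D4.cons z8b_12
 (D4.cons z8b_13
 (D4.cons z8b_14
 (D4.cons z8b_15
 (D4.cons z8b_16
 (D4.cons z8b_17
 (D4.cons z8b_18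
 (D4.cons z8b_19
 (D4.cons z8b_20
 (D4.cons z8b_21
 (D4.cons z8b_22
 (D4.cons z8b_23
 (D4.cons z8b_24
 (D4.cons z8b_25
 (D4.cons z8b_26
 (D4.cons z8b_27
 (D4.cons z8b_28
 (D4.cons z8b_29
 (D4.cons z8b_30
 (D4.cons z8b_31
 (D4.cons z8b_32
 (D4.cons z8b_33
 (D4.cons z8b_34
 (D4.cons z8b_35
 (D4.cons z8b_36
 (D4.cons z8b_37
 (D4.cons z8b_38
 (D4.cons z8b_39
 D4.nil))))))))))))))))))))))))))))))))))))))))

noncomputable def bs8b : Bs := ⟨(nat_lit 90),
  (nat_lit 77),
  (nat_lit 0x5a59575554535251514f594c574a5548554853465346514451444f424f424e415a4d40594c3f574a3d56493c55483b55483b5346395346395043365a4d4033574a3d583055483b562e54473a55),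
  up8b,
  (nat_lit 0x5a5a585555535351514f4d4b48474644424240403f3e3c3a3938332e2d291e1c1a18161412100e0c),
  (nat_lit 292),
  (nat_lit 0x27262524232221201f1e1d1d1d1d1c1c1c1c1b1b1b1b1a1a1a1a191919191818181817171717161616161515151515151514141414141414131313131313131212121212121211111111111111101010101010100f0f0f0f0f0f0f0e0e0e0e0e0e0e0d0d0d0d0d0d0d0d0d0d0c0c0c0c0c0c0c0c0c0c0b0b0b0b0b0b0b0b0b0b0a0a0a0a0a0a0a0a0a0a09090909090909090909090909080808080808080808080808080707070707070707070707070706060606060606060606060606060606050505050505050505050505050505050404040404040404040404040404040403030303030303030303030303030303020202020202020202020202020202020101010101010101010101010101010100000000000000000000000000000000000000),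
  (nat_lit 0x3020100030201000302010003020100030201000302010003020100030201000605040302010006050403020100060504030201000605040302010006050403020100060504030201000605040302010006050403020100090807060504030201000908070605040302010009080706050403020100090807060504030201000c0b0a090807060504030201000c0b0a090807060504030201000c0b0a090807060504030201000f0e0d0c0b0a090807060504030201000f0e0d0c0b0a090807060504030201000f0e0d0c0b0a090807060504030201000f0e0d0c0b0a090807060504030201000f0e0d0c0b0a090807060504030201000f0e0d0c0b0a090807060504030201001211100f0e0d0c0b0a09080706050403020100)⟩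

end Vale.Agent.P236JM
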