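import Vale.Agent.P236JB.Main

/-!
# P236JM / Cov : several groups of columns
-/

noncomputable section

namespace Vale.Agent.P236JB

open MvPolynomial Vale.Agent.P236KE Vale.Agent.P236JF Vale.Agent.P236JW
open Vale.Agent.P236K3 (loop)
open Vale.Agent.P236JK (ones ite')
open Vale.Agent.P236JL (alt alt_spec)
open Vale.Agent.P236JY (rJ)
open Vale.Agent.P236KE.S90 (sph)
open Vale.Agent.P236JK.Ini (SqJ)

def cw2 (K b d k : Nat) : Bool :=
  ite' (Nat.ble (Nat.add (Nat.add d (Nat.mul (nat_lit 13) (Nat.div k (nat_lit 3))))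
    (Nat.mul (nat_lit 40) (Nat.mod k (nat_lit 3)))) (nat_lit 90))
    (bt K (Nat.add (Nat.mul (nat_lit 256) b)
      (Nat.add (Nat.mul (nat_lit 8) (Nat.div k (nat_lit 3))) (Nat.mod k (nat_lit 3))))) true
def cw1 (K du b : Nat) : Bool := alt ⟨cw2 K b (byte du b)⟩ (nat_lit 21)
/-- all runs are marked, all columns occur -/
def okF (q M K : Nat) : Bool :=
  alt ⟨fm1 (sph.d q) M⟩ (sph.n q) && alt ⟨cw1 K (sph.d (q + 2))⟩ (sph.n (q + 2))
/-- the side conditions -/
def okB (q : Nat) (c : CG) (a : P236JW.Bs) (dl n : Nat) : Bool :=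
  sdG q c a && Nat.beq dl (sph.d q) && Nat.beq n (sph.n q)

variable [Fact (Nat.Prime 3)]

/-- the composite vanishes for the runs marked in `M` and the columns marked in `K` -/
def Cv (q M K : ℕ) : Prop :=
  ∀ (w : sph.G (q + 1)) (b : sph.G (q + 3)) (E V : Q4), V.1 < 3 → wt4 E + sph.dg (q + 1) w ≤ 90 →
    wt4 V + sph.dg (q + 3) b = wt4 E + sph.dg (q + 1) w →
    M.testBit (32 * w.1 + (9 * E.2.2.2 + E.2.2.1)) = true →
    K.testBit (256 * b.1 + (8 * V.2.2.1 + V.2.2.2)) = true →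
      valJ (fun w' => rJ.y (q + 1) w' b) (fun w' => rJ.y q w w') E V 0 0 = 0

variable {q dl n M M' K K' : ℕ} {a : P236JW.Bs} {c : CG}

theorem cv_of (hT : TabW (q + 1) c a.dc a.up) (h : Dn q a dl n M) (hc : okB q c a dl n = true) :
    Cv q M (kM c) := by
  simp only [okB, Bool.and_eq_true, Nat.beq_eq] at hc
  obtain ⟨⟨h1, rfl⟩, rfl⟩ := hc
  obtain ⟨e1, e2, -, e4, -, e6⟩ := sdG_spec h1
  intro w b E V hV k1 k2 h7 g7
  change _ + byte (sph.d q) w ≤ _ at k1
  change _ + byte (sph.d (q + 2)) b = _ + byte (sph.d q) w at k2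
  have k3 := k1
  have k4 := k2
  rw [wt4] at k3
  rw [wt4, wt4] at k4
  obtain ⟨m, h8, h9⟩ := h w w.2 _ (by omega) h7
  obtain ⟨i, hi, g8⟩ := bit_kM g7
  have g9 := (cG_col e6 hi).2
  have g10 : byte a.dc i < 256 := byte_eq a.dc i ▸ dg_lt _ _
  have g11 : b.1 = byte c.tb i := by omega
  rw [← g11] at g9
  change _ = byte (sph.d (q + 2)) b + _ + _ at g9
  have g12 : V.2.2.2 < 3 := by omega
  rw [← g11] at g8
  have g13 : byte c.td i < 8 := by omega
  have g14 : byte c.tc i = V.2.2.1 := by omega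
  have g15 : byte c.td i = V.2.2.2 := by omega
  rw [g14, g15] at g9
  obtain ⟨hz, hF⟩ := init_fam h1 hT w hi b g11
  exact of_okM (S := fun _ => True) (z := c.col a.dc i) h9 h8 e4 e2.le
    (fun g1 g2 g3 g4 V e f hV => P236JK.valJ_t1 g1 g2 g3 g4 hV _ _) (fun _ => trivial) hz.i hz.D
    (fun g4 c1 c0 b2 b1 b0 => (x2_fam hz hF g4 c1 c0 b2 b1 b0).rep) hV
    g14 g15
    (show byte a.dc i + _ + _ ≤ _ by omega)
    (show wt4 E + byte (sph.d q) w = byte a.dc i + _ + _ by rw [wt4]; omega)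

/-- more columns -/
theorem Cv.col (h : Cv q M K) (h' : Cv q M' K') : Cv q (Nat.land M M') (Nat.lor K K') :=
  fun w b E V hV k1 k2 h1 h2 => by
    change (M &&& M').testBit _ = true at h1
    change (K ||| K').testBit _ = true at h2
    rw [Nat.testBit_and, Bool.and_eq_true] at h1
    rw [Nat.testBit_or, Bool.or_eq_true] at h2
    exact h2.elim (h w b E V hV k1 k2 h1.1) (h' w b E V hV k1 k2 h1.2)

/-- more runs -/
theorem Cv.run (h : Cv q M K) (h' : Cv q M' K') : Cv q (Nat.lor M M') (Nat.land K K') :=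
  fun w b E V hV k1 k2 h1 h2 => by
    change (M ||| M').testBit _ = true at h1
    change (K &&& K').testBit _ = true at h2
    rw [Nat.testBit_and, Bool.and_eq_true] at h2
    rw [Nat.testBit_or, Bool.or_eq_true] at h1
    exact h1.elim (fun h3 => h w b E V hV k1 k2 h3 h2.1) fun h3 => h' w b E V hV k1 k2 h3 h2.2

/-- **The composite vanishes.** -/
theorem Cv.sq (h : Cv q M K) (hc : okF q M K = true) : SqJ q := by
  simp only [okF, Bool.and_eq_true] at hc
  obtain ⟨h4, h5⟩ := hc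
  intro w b E V hV k1 k2
  have k3 : wt4 E + byte (sph.d q) w ≤ 90 := k1
  have k4 : wt4 V + byte (sph.d (q + 2)) b = wt4 E + byte (sph.d q) w := k2
  rw [wt4] at k3
  rw [wt4, wt4] at k4
  have h6 : fm1 (sph.d q) M w = true := alt_spec (t := ⟨fm1 _ M⟩) h4 w.2
  have h7 : fm2 M w (byte (sph.d q) w) (9 * E.2.2.2 + E.2.2.1) = true :=
    alt_spec (t := ⟨fm2 M w _⟩) h6 (show _ < 27 by omega)
  rw [fm2] at h7
  replace h7 := ite_ble h7 (show byte (sph.d q) w + 13 * ((9 * E.2.2.2 + E.2.2.1) % 9) +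
    40 * ((9 * E.2.2.2 + E.2.2.1) / 9) ≤ 90 by omega)
  have g6 : cw1 K (sph.d (q + 2)) b = true := alt_spec (t := ⟨cw1 K _⟩) h5 b.2
  have g7 : cw2 K b (byte (sph.d (q + 2)) b) (3 * V.2.2.1 + V.2.2.2) = true :=
    alt_spec (t := ⟨cw2 K b _⟩) g6 (show _ < 21 by omega)
  rw [cw2] at g7
  replace g7 := bt_eq (ite_ble g7 (show byte (sph.d (q + 2)) b +
    13 * ((3 * V.2.2.1 + V.2.2.2) / 3) + 40 * ((3 * V.2.2.1 + V.2.2.2) % 3) ≤ 90 by omega))
  change K.testBit (256 * b.1 + (8 * ((3 * V.2.2.1 + V.2.2.2) / 3) +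
    (3 * V.2.2.1 + V.2.2.2) % 3)) = true at g7
  rw [show (3 * V.2.2.1 + V.2.2.2) / 3 = V.2.2.1 by omega,
    show (3 * V.2.2.1 + V.2.2.2) % 3 = V.2.2.2 by omega] at g7
  exact h w b E V hV k1 k2 (bt_eq h7) g7

end Vale.Agent.P236JB

end
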