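import Vale.Agent.P236JI.Run
import Vale.Agent.P236JB.Z.B11

/-!
# P236JM : a part of the curvature check (generated)
-/

namespace Vale.Agent.P236JM

theorem k10_1 : P236JW.okQ 10 P236JB.Z.bs11 (nat_lit 3237598230835063655583463152312356055455114196641701606068345389917272765621716647143837986283522673021199) (nat_lit 44)
    (nat_lit 3618502761706184439835953486854482033395056347164123203692477019143675052032) = true := by decide +kernel

end Vale.Agent.P236JM
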