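import Vale.Agent.P236JI.Run
import Vale.Agent.P236JB.Z.B14

/-!
# P236JM : a part of the curvature check (generated)
-/

namespace Vale.Agent.P236JM

theorem k13_0 : P236JW.okQ 13 P236JB.Z.bs14 (nat_lit 2648320374914621369181092449332147306061375737516491309038261480929472955928745235) (nat_lit 34)
    (nat_lit 2475880060124016476088696832) = true := by decide +kernel

end Vale.Agent.P236JM
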