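import Vale.Agent.P236JI.Run
import Vale.Agent.P236JB.Z.B15

/-!
# P236JM : a part of the curvature check (generated)
-/

namespace Vale.Agent.P236JM

theorem k14_0 : P236JW.okQ 14 P236JB.Z.bs15 (nat_lit 40864241693562149705528497749700231745651117717904805402132220221860104181525) (nat_lit 32)
    (nat_lit 134217727) = true := by decide +kernel

end Vale.Agent.P236JM
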