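import Vale.Agent.P236JI.Run
import Vale.Agent.P236JB.Z.B16

/-!
# P236JM : a part of the curvature check (generated)
-/

namespace Vale.Agent.P236JM

theorem k15_2 : P236JW.okQ 15 P236JB.Z.bs16 (nat_lit 2435909644506666478197800501952820736163417832575327621763433196296214) (nat_lit 29)
    (nat_lit 45671925836942173159977852027975355821178486784) = true := by decide +kernel

end Vale.Agent.P236JM
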