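import Vale.Agent.P236JI.Run
import Vale.Agent.P236JB.Z.B17

/-!
# P236JM : a part of the curvature check (generated)
-/

namespace Vale.Agent.P236JM

theorem k16_0 : P236JW.okQ 16 P236JB.Z.bs17 (nat_lit 145185055131510149037199030283913693048278864613936098382191128) (nat_lit 26)
    (nat_lit 576460748142673919) = true := by decide +kernel

end Vale.Agent.P236JM
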