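import Vale.Agent.P236JI.Run
import Vale.Agent.P236JM.B2b

/-!
# P236JM : a part of the curvature check (generated)
-/

namespace Vale.Agent.P236JM

theorem k1b_1 : P236JW.okQ 1 bs2b (nat_lit 348345926401) (nat_lit 5)
    (nat_lit 7680) = true := by decide +kernel

end Vale.Agent.P236JM
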