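import Vale.Agent.P236JI.Run
import Vale.Agent.P236JM.B3c

/-!
# P236JM : a part of the curvature check (generated)
-/

namespace Vale.Agent.P236JM

theorem k2c_5 : P236JW.okQ 2 bs3c (nat_lit 120068342151380116644607506213608293635) (nat_lit 16)
    (nat_lit 32985348833280) = true := by decide +kernel

end Vale.Agent.P236JM
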