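import Vale.Agent.P236JI.Run
import Vale.Agent.P236JM.B4c

/-!
# P236JM : a part of the curvature check (generated)
-/

namespace Vale.Agent.P236JM

theorem k3c_1 : P236JW.okQ 3 bs4c (nat_lit 159639774568120628149459061353342141100189808554228607960511648115286607364) (nat_lit 31)
    (nat_lit 508) = true := by decide +kernel

end Vale.Agent.P236JM
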