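import Vale.Agent.P236JI.Run
import Vale.Agent.P236JB.Z.B5

/-!
# P236JM : a part of the curvature check (generated)
-/

namespace Vale.Agent.P236JM

theorem k4_21 : P236JW.okQ 4 P236JB.Z.bs5 (nat_lit 192992678161560861132938931335132276667006153046180703893355915517106788701200455471231017534752774) (nat_lit 41)
    (nat_lit 45670706254305304629473634824416201475209822208) = true := by decide +kernel

end Vale.Agent.P236JM
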