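import Vale.Agent.P236JI.Run
import Vale.Agent.P236JM.B6b

/-!
# P236JM : a part of the curvature check (generated)
-/

namespace Vale.Agent.P236JM

theorem k5b_15 : P236JW.okQ 5 bs6b (nat_lit 828861405155490801838884857677546225385886020490174721035885081426094958760269123736795053231516722202872071) (nat_lit 45)
    (nat_lit 276701161105643274240) = true := by decide +kernel

end Vale.Agent.P236JM
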