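import Vale.Agent.P236JI.Run
import Vale.Agent.P236JB.Z.B9

/-!
# P236JM : a part of the curvature check (generated)
-/

namespace Vale.Agent.P236JM

theorem k8_2 : P236JW.okQ 8 P236JB.Z.bs9 (nat_lit 753877520257970720596902519485257212967371110296035559511389235687451033557125792440328452574732) (nat_lit 40)
    (nat_lit 196159427769332136538965501271554742786915587983568535552) = true := by decide +kernel

end Vale.Agent.P236JM
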