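import Vale.Agent.P236JI.Run
import Vale.Agent.P236JB.Z.B9

/-!
# P236JM : a part of the curvature check (generated)
-/

namespace Vale.Agent.P236JM

theorem k8_6 : P236JW.okQ 8 P236JB.Z.bs9 (nat_lit 753877520257970720596902519485257212967371110296035559511389235687451033557125792440328452574732) (nat_lit 40)
    (nat_lit 650495757471409184547419256037684665268917362658077740612881090322155669112371567733320957010482425346001468074329110245310397618291476662215097059362495233272588882986521699747578975101752882318546450486602842251394904354919331443165851780975508670638514261262819555014964558057701830156115134795988948990184939800775016588009328578556145629349315277624513753991100505047301732958208) = true := by decide +kernel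

end Vale.Agent.P236JM
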