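import Vale.Agent.P236JB.Tab
import Vale.Agent.P236JM.B2a

/-!
# P236JM : checks of the tables of bytes (generated)
-/

set_option maxRecDepth 100000

namespace Vale.Agent.P236JM

open Vale.Agent.P236KE Vale.Agent.P236JL Vale.Agent.P236JB

noncomputable def cg2a : CG := ⟨(nat_lit 59), (nat_lit 0x504040404040404040404030303030303030303030303020202020202020202020202010101010101010101010101000000000000000000000000),
  (nat_lit 0x6050403020201010000060504030302020101000000060504030302020101000000060504030302020101000000060504030302020101000000),
  (nat_lit 0x10001000100000000010001000100020100000000010001000100020100000000010001000100020100000000010001000100020100), (nat_lit 0),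
  (DL.cons (nat_lit 0xc92db92da000000000000000) (nat_lit 256)
    (DL.cons (nat_lit 0x1f25b7e4a0000000) (nat_lit 128)
    (DL.cons (nat_lit 0xc92d8000000000000000000000000000000000001f25a0000000000000000000000000000000000016fc8000) (nat_lit 64)
    (DL.cons (nat_lit 0xc9000000000000000000392000000000000000001f0000000000000000001780000000000000000016c0000000000000000016c0) (nat_lit 32)
    (DL.cons (nat_lit 0x8000000000280000000030000000000d00000000180000000025000000001400000000600000000014000000003000000000140000000018) (nat_lit 16)
    (DL.cons (nat_lit 0x4000002000050000200009000008000080001000040000200000800010000300004000048000100002800020000800001000028000100004) (nat_lit 8)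
    (DL.cons (nat_lit 0x800000804000000100800000804000000100804020000040000001004020000000004000010040200000010080400100402000010080402) (nat_lit 4)
    (DL.cons (nat_lit 0x400000200040000020000000200040000020000040200020400000200040200000402040002000402000402000004000004020004000004020) (nat_lit 2)
    (DL.cons (nat_lit 0x80008000808000008080008000808000008080008000800080000080800000800080008000808000008080008000800080000080800000800080) (nat_lit 1)
    DL.nil)))))))))⟩

theorem g2a : cG 2 cg2a bs2a.dc = true := by decide +kernel
theorem w2a_0 : rgC (cW 2 cg2a up2a) 0 0 = true := by decide +kernel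
theorem w2a_1 : rgC (cW 2 cg2a up2a) 1 0 = true := by decide +kernel
theorem w2a_2 : rgC (cW 2 cg2a up2a) 2 0 = true := by decide +kernel
theorem w2a_3 : rgC (cW 2 cg2a up2a) 3 0 = true := by decide +kernel
theorem w2a_4 : rgC (cW 2 cg2a up2a) 4 0 = true := by decide +kernel
theorem w2a_5 : rgC (cW 2 cg2a up2a) 5 2 = true := by decide +kernel
theorem w2a_8 : rgC (cW 2 cg2a up2a) 8 7 = true := by decide +kernel

theorem rW2a : Rg (cW 2 cg2a up2a) 0 16 :=
  .cons 0 0 w2a_0 <|
  .cons 1 0 w2a_1 <|
  .cons 2 0 w2a_2 <|
  .cons 3 0 w2a_3 <|
  .cons 4 0 w2a_4 <|
  .cons 5 2 w2a_5 <|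
  .cons 8 7 w2a_8 <|
  .nil _ _

theorem tabW2a [Fact (Nat.Prime 3)] : TabW 2 cg2a bs2a.dc bs2a.up :=
  tabW_of g2a rW2a (by decide +kernel)

end Vale.Agent.P236JM
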