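import Vale.Agent.P236JB.Tab
import Vale.Agent.P236JM.B2b

/-!
# P236JM : checks of the tables of bytes (generated)
-/

set_option maxRecDepth 100000

namespace Vale.Agent.P236JM

open Vale.Agent.P236KE Vale.Agent.P236JL Vale.Agent.P236JB

noncomputable def cg2b : CG := ⟨(nat_lit 60), (nat_lit 0xc0c0b0b0b0b0b0b0b0a0a0a0a0a0a0a0909090909090909090808080808080808080707070707070707070606060606060606060505050505050505),
  (nat_lit 0x4030201010000040302010100000504030202010100000504030202010100000504030202010100000504030202010100000504030202010100),
  (nat_lit 0x10000000001000100000000010001000000000100010001000000000100010001000000000100010001000000000100010001000000000100010001), (nat_lit 96),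
  (DL.cons (nat_lit 0x725b92dc9000000000000000000) (nat_lit 256)
    (DL.cons (nat_lit 0x6dc96dc96000000000) (nat_lit 128)
    (DL.cons (nat_lit 0x725a00000000000000000000000000000000000006dc94000000000000000000000000000000000000dc9680000) (nat_lit 64)
    (DL.cons (nat_lit 0x700000000000000000019280000000000000000006d0000000000000000002d8000000000000000000dc0000000000000000005c900) (nat_lit 32)
    (DL.cons (nat_lit 0x250000000019000000000580000000006000000000c000000000280000000049000000000d00000000094000000005800000000060) (nat_lit 16)
    (DL.cons (nat_lit 0x4000020000080001000002000050000400000400008000080000900002000050000400000400008000080000900002000050000400000400008) (nat_lit 8)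
    (DL.cons (nat_lit 0x402000004000000100800000804000000080000000804000000080000000804000000080000000804000000080000000804000000080000000804) (nat_lit 4)
    (DL.cons (nat_lit 0x4020002040000020000000200040000040000040200040000040000040200040000040000040200040000040000040200040000040000040200040) (nat_lit 2)
    (DL.cons (nat_lit 0x80008000008080008000808000008000800000808000008000800000808000008000800000808000008000800000808000008000800000808000) (nat_lit 1)
    DL.nil)))))))))⟩

theorem g2b : cG 2 cg2b bs2b.dc = true := by decide +kernel
theorem w2b_0 : rgC (cW 2 cg2b up2b) 0 0 = true := by decide +kernel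
theorem w2b_1 : rgC (cW 2 cg2b up2b) 1 0 = true := by decide +kernel
theorem w2b_2 : rgC (cW 2 cg2b up2b) 2 0 = true := by decide +kernel
theorem w2b_3 : rgC (cW 2 cg2b up2b) 3 0 = true := by decide +kernel
theorem w2b_4 : rgC (cW 2 cg2b up2b) 4 0 = true := by decide +kernel
theorem w2b_5 : rgC (cW 2 cg2b up2b) 5 2 = true := by decide +kernel
theorem w2b_8 : rgC (cW 2 cg2b up2b) 8 7 = true := by decide +kernel

theorem rW2b : Rg (cW 2 cg2b up2b) 0 16 :=
  .cons 0 0 w2b_0 <|
  .cons 1 0 w2b_1 <|
  .cons 2 0 w2b_2 <|
  .cons 3 0 w2b_3 <|
  .cons 4 0 w2b_4 <|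
  .cons 5 2 w2b_5 <|
  .cons 8 7 w2b_8 <|
  .nil _ _

theorem tabW2b [Fact (Nat.Prime 3)] : TabW 2 cg2b bs2b.dc bs2b.up :=
  tabW_of g2b rW2b (by decide +kernel)

end Vale.Agent.P236JM
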