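import Vale.Agent.P236JB.Tab
import Vale.Agent.P236JM.B2c

/-!
# P236JM : checks of the tables of bytes (generated)
-/

set_option maxRecDepth 100000

namespace Vale.Agent.P236JM

open Vale.Agent.P236KE Vale.Agent.P236JL Vale.Agent.P236JB

noncomputable def cg2c : CG := ⟨(nat_lit 59), (nat_lit 0x1e1d1c1b1a191817171616151515141414131313121212111111111110101010100f0f0f0f0f0f0f0e0e0e0e0e0e0e0d0d0d0d0d0d0d0c0c0c0c0c),
  (nat_lit 0x1000100020100020100020100020100030201000003020100000403020101000004030201010000040302010100000403020101),
  (nat_lit 0x10000000001000000000100010000000001000100000000010001000000000100), (nat_lit 204),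
  (DL.cons (nat_lit 0xff33264000000000000000000000) (nat_lit 256)
    (DL.cons (nat_lit 0xc99325c97258000000000) (nat_lit 128)
    (DL.cons (nat_lit 0xf80000000000000000000000000000000000000c993250000000000000000000000000000000000000392dc00000) (nat_lit 64)
    (DL.cons (nat_lit 0x800000000000000007300000000000000000000c990000000000000000000c9400000000000000000039200000000000000000096800) (nat_lit 32)
    (DL.cons (nat_lit 0x6000000007000000000320000000000c800000000030000000000c8000000003200000000030000000000d0000000009400000000640) (nat_lit 16)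
    (DL.cons (nat_lit 0x4000100004000020000300000400000800001000002000024000080000100003000005000020000900000800008000090000200004000008) (nat_lit 8)
    (DL.cons (nat_lit 0x10080402000010020000040200080400100800001002001008040010040200000400000010080000080400000008000000080402000802) (nat_lit 4)
    (DL.cons (nat_lit 0x402000004020002000200020402040004000000000200020400000400000402000204000002000000020004000004000004020004020400020) (nat_lit 2)
    (DL.cons (nat_lit 0x80008000800080008000800080008000800080008000800080000080008000008000800000808000800080800000800080000080800080008080) (nat_lit 1)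
    DL.nil)))))))))⟩

theorem g2c : cG 2 cg2c bs2c.dc = true := by decide +kernel
theorem w2c_0 : rgC (cW 2 cg2c up2c) 0 0 = true := by decide +kernel
theorem w2c_1 : rgC (cW 2 cg2c up2c) 1 0 = true := by decide +kernel
theorem w2c_2 : rgC (cW 2 cg2c up2c) 2 0 = true := by decide +kernel
theorem w2c_3 : rgC (cW 2 cg2c up2c) 3 0 = true := by decide +kernel
theorem w2c_4 : rgC (cW 2 cg2c up2c) 4 0 = true := by decide +kernel
theorem w2c_5 : rgC (cW 2 cg2c up2c) 5 2 = true := by decide +kernel
theorem w2c_8 : rgC (cW 2 cg2c up2c) 8 7 = true := by decide +kernel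

theorem rW2c : Rg (cW 2 cg2c up2c) 0 16 :=
  .cons 0 0 w2c_0 <|
  .cons 1 0 w2c_1 <|
  .cons 2 0 w2c_2 <|
  .cons 3 0 w2c_3 <|
  .cons 4 0 w2c_4 <|
  .cons 5 2 w2c_5 <|
  .cons 8 7 w2c_8 <|
  .nil _ _

theorem tabW2c [Fact (Nat.Prime 3)] : TabW 2 cg2c bs2c.dc bs2c.up :=
  tabW_of g2c rW2c (by decide +kernel)

end Vale.Agent.P236JM
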