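import Vale.Agent.P236JB.Tab
import Vale.Agent.P236JM.B3a

/-!
# P236JM : checks of the tables of bytes (generated)
-/

set_option maxRecDepth 100000

namespace Vale.Agent.P236JM

open Vale.Agent.P236KE Vale.Agent.P236JL Vale.Agent.P236JB

noncomputable def cg3a : CG := ⟨(nat_lit 69), (nat_lit 0x60606060605050505050505050504040404040404040403030303030303030303020202020202020202020202010101010101010101010101000000000000000000000000),
  (nat_lit 0x20101000005040302020101000005040302020101000006050403020201010000060504030302020101000000060504030302020101000000060504030302020101000000),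
  (nat_lit 0x100010000000001000100010000000001000100010000000000010001000100000000010001000100020100000000010001000100020100000000010001000100020100), (nat_lit 0),
  (DL.cons (nat_lit 0x5b92db92db9258000000000000000) (nat_lit 256)
    (DL.cons (nat_lit 0x5b9200000000000000000000000000000000000000000000000000000000000000000000000003725b7e4a0000000) (nat_lit 128)
    (DL.cons (nat_lit 0xdb9280000000000000000000000000000000000003725a0000000000000000000000000000000000016fc8000) (nat_lit 64)
    (DL.cons (nat_lit 0x58000000000000000000da0000000000000000005b0000000000000000000370000000000000000001780000000000000000016c0000000000000000016c0) (nat_lit 32)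
    (DL.cons (nat_lit 0x30000000000d0000000019000000000580000000092000000000300000000025000000001400000000600000000014000000003000000000140000000018) (nat_lit 16)
    (DL.cons (nat_lit 0x5000020000900000800008000100000200005000020000900000500002000040000200000800010000300004000048000100002800020000800001000028000100004) (nat_lit 8)
    (DL.cons (nat_lit 0x400000010080000080400000010080000080400000010080000040000001004020000040000001004020000000004000010040200000010080400100402000010080402) (nat_lit 4)
    (DL.cons (nat_lit 0x4000002000000020004000002000000020004000002000000020400000200040200020400000200040200000402040002000402000402000004000004020004000004020) (nat_lit 2)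
    (DL.cons (nat_lit 0x808000800080800000808000800080800000808000800080000080800000800080000080800000800080008000808000008080008000800080000080800000800080) (nat_lit 1)
    DL.nil)))))))))⟩

theorem g3a : cG 3 cg3a bs3a.dc = true := by decide +kernel
theorem w3a_0 : rgC (cW 3 cg3a up3a) 0 0 = true := by decide +kernel
theorem w3a_1 : rgC (cW 3 cg3a up3a) 1 0 = true := by decide +kernel
theorem w3a_2 : rgC (cW 3 cg3a up3a) 2 0 = true := by decide +kernel
theorem w3a_3 : rgC (cW 3 cg3a up3a) 3 0 = true := by decide +kernel
theorem w3a_4 : rgC (cW 3 cg3a up3a) 4 0 = true := by decide +kernel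
theorem w3a_5 : rgC (cW 3 cg3a up3a) 5 1 = true := by decide +kernel
theorem w3a_7 : rgC (cW 3 cg3a up3a) 7 1 = true := by decide +kernel
theorem w3a_9 : rgC (cW 3 cg3a up3a) 9 2 = true := by decide +kernel
theorem w3a_12 : rgC (cW 3 cg3a up3a) 12 4 = true := by decide +kernel
theorem w3a_17 : rgC (cW 3 cg3a up3a) 17 11 = true := by decide +kernel
theorem w3a_29 : rgC (cW 3 cg3a up3a) 29 1 = true := by decide +kernel

theorem rW3a : Rg (cW 3 cg3a up3a) 0 31 :=
  .cons 0 0 w3a_0 <|
  .cons 1 0 w3a_1 <|
  .cons 2 0 w3a_2 <|
  .cons 3 0 w3a_3 <|
  .cons 4 0 w3a_4 <|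
  .cons 5 1 w3a_5 <|
  .cons 7 1 w3a_7 <|
  .cons 9 2 w3a_9 <|
  .cons 12 4 w3a_12 <|
  .cons 17 11 w3a_17 <|
  .cons 29 1 w3a_29 <|
  .nil _ _

theorem tabW3a [Fact (Nat.Prime 3)] : TabW 3 cg3a bs3a.dc bs3a.up :=
  tabW_of g3a rW3a (by decide +kernel)

end Vale.Agent.P236JM
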