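import Vale.Agent.P236JB.Tab
import Vale.Agent.P236JM.B3b

/-!
# P236JM : checks of the tables of bytes (generated)
-/

set_option maxRecDepth 100000

namespace Vale.Agent.P236JM

open Vale.Agent.P236KE Vale.Agent.P236JL Vale.Agent.P236JB

noncomputable def cg3b : CG := ⟨(nat_lit 69), (nat_lit 0xf0f0f0e0e0e0e0e0e0e0d0d0d0d0d0d0d0c0c0c0c0c0c0c0b0b0b0b0b0b0b0a0a0a0a0a0a0a09090909090909090908080808080808080807070707070707070706060606),
  (nat_lit 0x10000040302010100000403020101000004030201010000040302010100000403020101000005040302020101000005040302020101000005040302020101000005040302),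
  (nat_lit 0x100000000010001000000000100010000000001000100000000010001000000000100010000000001000100010000000001000100010000000001000100010000000001), (nat_lit 115),
  (DL.cons (nat_lit 0x2e4b725b92dc90000000000000000000) (nat_lit 256)
    (DL.cons (nat_lit 0x2e4800000000000000000000000000000000000000000000000000000000000000000000000006e4b725b70000000000) (nat_lit 128)
    (DL.cons (nat_lit 0x3725b00000000000000000000000000000000000006e4b400000000000000000000000000000000000025b7200000) (nat_lit 64)
    (DL.cons (nat_lit 0x200000000000000000037000000000000000000092c0000000000000000006e00000000000000000032580000000000000000025a0000000000000000005b000) (nat_lit 32)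
    (DL.cons (nat_lit 0xc00000000034000000002500000000090000000001800000000068000000004a000000003200000000030000000002500000000140000000005800000000700) (nat_lit 16)
    (DL.cons (nat_lit 0x80002400003000020000240000800008000028000100004800004000040000480001000030000050000200004000020000080001000030000050000200004000020) (nat_lit 8)
    (DL.cons (nat_lit 0x8040200080200000010020010080200001002000010080400100402000000040000100402000004000000100402000004000000100402000004000000100402000004) (nat_lit 4)
    (DL.cons (nat_lit 0x2000402040002000402000204000002000000020004000004000004020004020400020004020002040000020004020002040000020004020002040000020004020002040) (nat_lit 2)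
    (DL.cons (nat_lit 0x8080008000808000008000800000808000800080800000800080000080800080008080000080008000008080000080008000008080000080008000008080000080008000) (nat_lit 1)
    DL.nil)))))))))⟩

theorem g3b : cG 3 cg3b bs3b.dc = true := by decide +kernel
theorem w3b_0 : rgC (cW 3 cg3b up3b) 0 0 = true := by decide +kernel
theorem w3b_1 : rgC (cW 3 cg3b up3b) 1 0 = true := by decide +kernel
theorem w3b_2 : rgC (cW 3 cg3b up3b) 2 0 = true := by decide +kernel
theorem w3b_3 : rgC (cW 3 cg3b up3b) 3 0 = true := by decide +kernel
theorem w3b_4 : rgC (cW 3 cg3b up3b) 4 0 = true := by decide +kernel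
theorem w3b_5 : rgC (cW 3 cg3b up3b) 5 1 = true := by decide +kernel
theorem w3b_7 : rgC (cW 3 cg3b up3b) 7 1 = true := by decide +kernel
theorem w3b_9 : rgC (cW 3 cg3b up3b) 9 2 = true := by decide +kernel
theorem w3b_12 : rgC (cW 3 cg3b up3b) 12 4 = true := by decide +kernel
theorem w3b_17 : rgC (cW 3 cg3b up3b) 17 11 = true := by decide +kernel
theorem w3b_29 : rgC (cW 3 cg3b up3b) 29 1 = true := by decide +kernel

theorem rW3b : Rg (cW 3 cg3b up3b) 0 31 :=
  .cons 0 0 w3b_0 <|
  .cons 1 0 w3b_1 <|
  .cons 2 0 w3b_2 <|
  .cons 3 0 w3b_3 <|
  .cons 4 0 w3b_4 <|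
  .cons 5 1 w3b_5 <|
  .cons 7 1 w3b_7 <|
  .cons 9 2 w3b_9 <|
  .cons 12 4 w3b_12 <|
  .cons 17 11 w3b_17 <|
  .cons 29 1 w3b_29 <|
  .nil _ _

theorem tabW3b [Fact (Nat.Prime 3)] : TabW 3 cg3b bs3b.dc bs3b.up :=
  tabW_of g3b rW3b (by decide +kernel)

end Vale.Agent.P236JM
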