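import Vale.Agent.P236JB.Tab
import Vale.Agent.P236JM.B3c

/-!
# P236JM : checks of the tables of bytes (generated)
-/

set_option maxRecDepth 100000

namespace Vale.Agent.P236JM

open Vale.Agent.P236KE Vale.Agent.P236JL Vale.Agent.P236JB

noncomputable def cg3c : CG := ⟨(nat_lit 69), (nat_lit 0x2827262524232221201f1f1e1e1d1d1c1c1b1b1a1a19191918181817171716161615151514141414141313131313121212121211111111111111101010101010100f0f0f0f),
  (nat_lit 0x10001000100010001000100020100020100020100020100020100030201000003020100000302010000040302010100000403020101000004030201),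
  (nat_lit 0x10000000001000000000100000000010001000000000100010000000001), (nat_lit 241),
  (DL.cons (nat_lit 0x1ff9999999300000000000000000000000) (nat_lit 256)
    (DL.cons (nat_lit 0x1f0000000000000000000000000000000000000000000000000000000000000000000000000264c99325c9700000000000) (nat_lit 128)
    (DL.cons (nat_lit 0xf9990000000000000000000000000000000000000264c993000000000000000000000000000000000000025c96c00000) (nat_lit 64)
    (DL.cons (nat_lit 0xf0000000000000000000998000000000000000000264c000000000000000000025c00000000000000000025c80000000000000000024b000) (nat_lit 32)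
    (DL.cons (nat_lit 0x1800000000c00000000980000000009000000000190000000002600000000009800000000025000000000940000000025000000000140000000024800000000700) (nat_lit 16)
    (DL.cons (nat_lit 0x10000400008000200009000010000080000900001000002000024000048000090000100000200000800009000020000240000800001000028000200000200004000020) (nat_lit 8)
    (DL.cons (nat_lit 0x1008040200000000100800001008000010080000100800001002000004000008000010020000040000000800000010020010080400100402000000040000100402000004) (nat_lit 4)
    (DL.cons (nat_lit 0x402000004020000000000000000000000000000000200020402040004000000000200020400000400000402000204000004000004020004020400020004020002040) (nat_lit 2)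
    (DL.cons (nat_lit 0x80008000800080008000800080008000800080008000800080008000800080008000800080000080008000008000800000800080000080800080008080000080008000) (nat_lit 1)
    DL.nil)))))))))⟩

theorem g3c : cG 3 cg3c bs3c.dc = true := by decide +kernel
theorem w3c_0 : rgC (cW 3 cg3c up3c) 0 0 = true := by decide +kernel
theorem w3c_1 : rgC (cW 3 cg3c up3c) 1 0 = true := by decide +kernel
theorem w3c_2 : rgC (cW 3 cg3c up3c) 2 0 = true := by decide +kernel
theorem w3c_3 : rgC (cW 3 cg3c up3c) 3 0 = true := by decide +kernel
theorem w3c_4 : rgC (cW 3 cg3c up3c) 4 0 = true := by decide +kernel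
theorem w3c_5 : rgC (cW 3 cg3c up3c) 5 1 = true := by decide +kernel
theorem w3c_7 : rgC (cW 3 cg3c up3c) 7 1 = true := by decide +kernel
theorem w3c_9 : rgC (cW 3 cg3c up3c) 9 2 = true := by decide +kernel
theorem w3c_12 : rgC (cW 3 cg3c up3c) 12 4 = true := by decide +kernel
theorem w3c_17 : rgC (cW 3 cg3c up3c) 17 11 = true := by decide +kernel
theorem w3c_29 : rgC (cW 3 cg3c up3c) 29 1 = true := by decide +kernel

theorem rW3c : Rg (cW 3 cg3c up3c) 0 31 :=
  .cons 0 0 w3c_0 <|
  .cons 1 0 w3c_1 <|
  .cons 2 0 w3c_2 <|
  .cons 3 0 w3c_3 <|
  .cons 4 0 w3c_4 <|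
  .cons 5 1 w3c_5 <|
  .cons 7 1 w3c_7 <|
  .cons 9 2 w3c_9 <|
  .cons 12 4 w3c_12 <|
  .cons 17 11 w3c_17 <|
  .cons 29 1 w3c_29 <|
  .nil _ _

theorem tabW3c [Fact (Nat.Prime 3)] : TabW 3 cg3c bs3c.dc bs3c.up :=
  tabW_of g3c rW3c (by decide +kernel)

end Vale.Agent.P236JM
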