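import Vale.Agent.P236JB.Tab
import Vale.Agent.P236JM.B4a

/-!
# P236JM : checks of the tables of bytes (generated)
-/

set_option maxRecDepth 100000

namespace Vale.Agent.P236JM

open Vale.Agent.P236KE Vale.Agent.P236JL Vale.Agent.P236JB

noncomputable def cg4a : CG := ⟨(nat_lit 70), (nat_lit 0x6060606060606060505050505050505050404040404040404040303030303030303030202020202020202020202010101010101010101010101000000000000000000000000),
  (nat_lit 0x4030202010100000504030202010100000504030202010100000504030202010100000605040303020201010000060504030302020101000000060504030302020101000000),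
  (nat_lit 0x100010001000000000100010001000000000100010001000000000100010001000000000100010001000100000000010001000100020100000000010001000100020100), (nat_lit 0),
  (DL.cons (nat_lit 0x25b725b725b7250000000000000000) (nat_lit 256)
    (DL.cons (nat_lit 0x25b700000000000000000000000000000000000000000000000000000000000000000000000000b725b6e4a0000000) (nat_lit 128)
    (DL.cons (nat_lit 0x25b720000000000000000000000000000000000000b72580000000000000000000000000000000000016fc8000) (nat_lit 64)
    (DL.cons (nat_lit 0x2580000000000000000025a0000000000000000005b0000000000000000000b40000000000000000003680000000000000000016c0000000000000000016c0) (nat_lit 32)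
    (DL.cons (nat_lit 0x20000000003000000000250000000014000000000580000000070000000000a00000000320000000003000000000600000000014000000003000000000140000000018) (nat_lit 16)
    (DL.cons (nat_lit 0x5000020000400002000008000100003000005000020000400002000008000100003000005000020000400004000048000100002800020000800001000028000100004) (nat_lit 8)
    (DL.cons (nat_lit 0x400000010040200000400000010040200000400000010040200000400000010040200000400000010040200000004000010040200000010080400100402000010080402) (nat_lit 4)
    (DL.cons (nat_lit 0x204000002000402000204000002000402000204000002000402000204000002000402000204000002000402000402040002000402000402000004000004020004000004020) (nat_lit 2)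
    (DL.cons (nat_lit 0x800000808000008000800000808000008000800000808000008000800000808000008000800000808000008080008000808000008080008000800080000080800000800080) (nat_lit 1)
    DL.nil)))))))))⟩

theorem g4a : cG 4 cg4a bs4a.dc = true := by decide +kernel
theorem w4a_0 : rgC (cW 4 cg4a up4a) 0 0 = true := by decide +kernel
theorem w4a_1 : rgC (cW 4 cg4a up4a) 1 0 = true := by decide +kernel
theorem w4a_2 : rgC (cW 4 cg4a up4a) 2 0 = true := by decide +kernel
theorem w4a_3 : rgC (cW 4 cg4a up4a) 3 0 = true := by decide +kernel
theorem w4a_4 : rgC (cW 4 cg4a up4a) 4 0 = true := by decide +kernel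
theorem w4a_5 : rgC (cW 4 cg4a up4a) 5 0 = true := by decide +kernel
theorem w4a_6 : rgC (cW 4 cg4a up4a) 6 1 = true := by decide +kernel
theorem w4a_8 : rgC (cW 4 cg4a up4a) 8 2 = true := by decide +kernel
theorem w4a_11 : rgC (cW 4 cg4a up4a) 11 3 = true := by decide +kernel
theorem w4a_15 : rgC (cW 4 cg4a up4a) 15 9 = true := by decide +kernel
theorem w4a_25 : rgC (cW 4 cg4a up4a) 25 11 = true := by decide +kernel
theorem w4a_37 : rgC (cW 4 cg4a up4a) 37 3 = true := by decide +kernel

theorem rW4a : Rg (cW 4 cg4a up4a) 0 41 :=
  .cons 0 0 w4a_0 <|
  .cons 1 0 w4a_1 <|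
  .cons 2 0 w4a_2 <|
  .cons 3 0 w4a_3 <|
  .cons 4 0 w4a_4 <|
  .cons 5 0 w4a_5 <|
  .cons 6 1 w4a_6 <|
  .cons 8 2 w4a_8 <|
  .cons 11 3 w4a_11 <|
  .cons 15 9 w4a_15 <|
  .cons 25 11 w4a_25 <|
  .cons 37 3 w4a_37 <|
  .nil _ _

theorem tabW4a [Fact (Nat.Prime 3)] : TabW 4 cg4a bs4a.dc bs4a.up :=
  tabW_of g4a rW4a (by decide +kernel)

end Vale.Agent.P236JM
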