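import Vale.Agent.P236JB.Tab
import Vale.Agent.P236JM.B4b

/-!
# P236JM : checks of the tables of bytes (generated)
-/

set_option maxRecDepth 100000

namespace Vale.Agent.P236JM

open Vale.Agent.P236KE Vale.Agent.P236JL Vale.Agent.P236JB

noncomputable def cg4b : CG := ⟨(nat_lit 70), (nat_lit 0x10100f0f0f0f0f0f0f0e0e0e0e0e0e0e0d0d0d0d0d0d0d0c0c0c0c0c0c0c0b0b0b0b0b0b0b0a0a0a0a0a0a0a0909090909090908080808080808080807070707070707070706),
  (nat_lit 0x403020101000004030201010000040302010100000403020101000004030201010000040302010100000403020101000005040302020101000005040302020101000005),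
  (nat_lit 0x1000000000100010000000001000100000000010001000000000100010000000001000100000000010001000000000100010000000001000100010000000001000100010000), (nat_lit 120),
  (DL.cons (nat_lit 0x392dc96e4b7258000000000000000000) (nat_lit 256)
    (DL.cons (nat_lit 0x392d0000000000000000000000000000000000000000000000000000000000000000000000000392dc96e4b000000000) (nat_lit 128)
    (DL.cons (nat_lit 0xc96e4000000000000000000000000000000000000392dc8000000000000000000000000000000000000725b40000) (nat_lit 64)
    (DL.cons (nat_lit 0x30000000000000000000c94000000000000000000b600000000000000000039280000000000000000016c0000000000000000007250000000000000000032580) (nat_lit 32)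
    (DL.cons (nat_lit 0x92000000000c00000000028000000000b000000001240000000038000000000500000000014000000002480000000070000000000a000000003200000000030) (nat_lit 16)
    (DL.cons (nat_lit 0x2000090000080000800009000020000400000800004000100000100003000010000040000800001000028000200000200004000020000080001000030000050000200004) (nat_lit 8)
    (DL.cons (nat_lit 0x1008000008040000000800000008040200080200000010020010080200001002000010080400100402000000040000100402000004000000100402000004000000100402) (nat_lit 4)
    (DL.cons (nat_lit 0x200000002000400000400000402000402040002000402000204000002000000020004000004000004020004020400020004020002040000020004020002040000020004020) (nat_lit 2)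
    (DL.cons (nat_lit 0x800080008080000080008000008080008000808000008000800000808000800080800000800080000080800080008080000080008000008080000080008000008080000080) (nat_lit 1)
    DL.nil)))))))))⟩

theorem g4b : cG 4 cg4b bs4b.dc = true := by decide +kernel
theorem w4b_0 : rgC (cW 4 cg4b up4b) 0 0 = true := by decide +kernel
theorem w4b_1 : rgC (cW 4 cg4b up4b) 1 0 = true := by decide +kernel
theorem w4b_2 : rgC (cW 4 cg4b up4b) 2 0 = true := by decide +kernel
theorem w4b_3 : rgC (cW 4 cg4b up4b) 3 0 = true := by decide +kernel
theorem w4b_4 : rgC (cW 4 cg4b up4b) 4 0 = true := by decide +kernel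
theorem w4b_5 : rgC (cW 4 cg4b up4b) 5 0 = true := by decide +kernel
theorem w4b_6 : rgC (cW 4 cg4b up4b) 6 1 = true := by decide +kernel
theorem w4b_8 : rgC (cW 4 cg4b up4b) 8 2 = true := by decide +kernel
theorem w4b_11 : rgC (cW 4 cg4b up4b) 11 3 = true := by decide +kernel
theorem w4b_15 : rgC (cW 4 cg4b up4b) 15 9 = true := by decide +kernel
theorem w4b_25 : rgC (cW 4 cg4b up4b) 25 11 = true := by decide +kernel
theorem w4b_37 : rgC (cW 4 cg4b up4b) 37 3 = true := by decide +kernel

theorem rW4b : Rg (cW 4 cg4b up4b) 0 41 :=
  .cons 0 0 w4b_0 <|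
  .cons 1 0 w4b_1 <|
  .cons 2 0 w4b_2 <|
  .cons 3 0 w4b_3 <|
  .cons 4 0 w4b_4 <|
  .cons 5 0 w4b_5 <|
  .cons 6 1 w4b_6 <|
  .cons 8 2 w4b_8 <|
  .cons 11 3 w4b_11 <|
  .cons 15 9 w4b_15 <|
  .cons 25 11 w4b_25 <|
  .cons 37 3 w4b_37 <|
  .nil _ _

theorem tabW4b [Fact (Nat.Prime 3)] : TabW 4 cg4b bs4b.dc bs4b.up :=
  tabW_of g4b rW4b (by decide +kernel)

end Vale.Agent.P236JM
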