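import Vale.Agent.P236JB.Tab
import Vale.Agent.P236JM.B4c

/-!
# P236JM : checks of the tables of bytes (generated)
-/

set_option maxRecDepth 100000

namespace Vale.Agent.P236JM

open Vale.Agent.P236KE Vale.Agent.P236JL Vale.Agent.P236JB

noncomputable def cg4c : CG := ⟨(nat_lit 70), (nat_lit 0x2c2b2a292827262524232222212120201f1f1e1e1d1d1c1c1b1b1a1a191919181818171717161616151515151514141414141313131313121212121211111111111010101010),
  (nat_lit 0x10001000100010001000100010001000100020100020100020100020100030201000003020100000302010000030201000003020100000403020101),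
  (nat_lit 0x10000000001000000000100000000010000000001000000000100), (nat_lit 247),
  (DL.cons (nat_lit 0x3ff9999999900000000000000000000000) (nat_lit 256)
    (DL.cons (nat_lit 0x3f0000000000000000000000000000000000000000000000000000000000000000000000000993264c992e480000000000) (nat_lit 128)
    (DL.cons (nat_lit 0xf999000000000000000000000000000000000000099326480000000000000000000000000000000000000392e4a00000) (nat_lit 64)
    (DL.cons (nat_lit 0x200000000000000000f000000000000000000099800000000000000000099300000000000000000004992000000000000000000392800000000000000000192800) (nat_lit 32)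
    (DL.cons (nat_lit 0x1800000000c00000000980000000009000000000190000000009800000000024000000000490000000000c00000000038000000000600000000019000000000640) (nat_lit 16)
    (DL.cons (nat_lit 0x10000400008000200009000010000080000900001000008000090000100000200002400004800009000008000240000300001000004000048000100000200004000008) (nat_lit 8)
    (DL.cons (nat_lit 0x1008040200000000100800001008000010080000100800001008000010020000040200080400100800000804020008020000100200000004000010080000080402000802) (nat_lit 4)
    (DL.cons (nat_lit 0x200000402000004020000000000000000000000000000000000000000000200020402040004000000000200040204000200000002000402040002000000020004020400020) (nat_lit 2)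
    (DL.cons (nat_lit 0x800080008000800080008000800080008000800080008000800080008000800080008000800080008000808000800080800080008080008000808000800080800080008080) (nat_lit 1)
    DL.nil)))))))))⟩

theorem g4c : cG 4 cg4c bs4c.dc = true := by decide +kernel
theorem w4c_0 : rgC (cW 4 cg4c up4c) 0 0 = true := by decide +kernel
theorem w4c_1 : rgC (cW 4 cg4c up4c) 1 0 = true := by decide +kernel
theorem w4c_2 : rgC (cW 4 cg4c up4c) 2 0 = true := by decide +kernel
theorem w4c_3 : rgC (cW 4 cg4c up4c) 3 0 = true := by decide +kernel
theorem w4c_4 : rgC (cW 4 cg4c up4c) 4 0 = true := by decide +kernel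
theorem w4c_5 : rgC (cW 4 cg4c up4c) 5 0 = true := by decide +kernel
theorem w4c_6 : rgC (cW 4 cg4c up4c) 6 1 = true := by decide +kernel
theorem w4c_8 : rgC (cW 4 cg4c up4c) 8 2 = true := by decide +kernel
theorem w4c_11 : rgC (cW 4 cg4c up4c) 11 3 = true := by decide +kernel
theorem w4c_15 : rgC (cW 4 cg4c up4c) 15 9 = true := by decide +kernel
theorem w4c_25 : rgC (cW 4 cg4c up4c) 25 11 = true := by decide +kernel
theorem w4c_37 : rgC (cW 4 cg4c up4c) 37 3 = true := by decide +kernel

theorem rW4c : Rg (cW 4 cg4c up4c) 0 41 :=
  .cons 0 0 w4c_0 <|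
  .cons 1 0 w4c_1 <|
  .cons 2 0 w4c_2 <|
  .cons 3 0 w4c_3 <|
  .cons 4 0 w4c_4 <|
  .cons 5 0 w4c_5 <|
  .cons 6 1 w4c_6 <|
  .cons 8 2 w4c_8 <|
  .cons 11 3 w4c_11 <|
  .cons 15 9 w4c_15 <|
  .cons 25 11 w4c_25 <|
  .cons 37 3 w4c_37 <|
  .nil _ _

theorem tabW4c [Fact (Nat.Prime 3)] : TabW 4 cg4c bs4c.dc bs4c.up :=
  tabW_of g4c rW4c (by decide +kernel)

end Vale.Agent.P236JM
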