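import Vale.Agent.P236JB.Tab
import Vale.Agent.P236JM.B5a

/-!
# P236JM : checks of the tables of bytes (generated)
-/

set_option maxRecDepth 100000

namespace Vale.Agent.P236JM

open Vale.Agent.P236KE Vale.Agent.P236JL Vale.Agent.P236JB

noncomputable def cg5a : CG := ⟨(nat_lit 62), (nat_lit 0x606060505050505050505050404040404040404040303030303030303030202020202020202020101010101010101010101000000000000000000000000),
  (nat_lit 0x100000504030202010100000504030202010100000504030202010100000504030202010100000605040303020201010000060504030302020101000000),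
  (nat_lit 0x1000000000100010001000000000100010001000000000100010001000000000100010001000000000100010001000100000000010001000100020100), (nat_lit 0),
  (DL.cons (nat_lit 0x2e4b6e4b6c00000000000000000) (nat_lit 256)
    (DL.cons (nat_lit 0x24b6e4b6e480000000) (nat_lit 128)
    (DL.cons (nat_lit 0x2e4b680000000000000000000000000000000000024b6e000000000000000000000000000000000000036dc8000) (nat_lit 64)
    (DL.cons (nat_lit 0x2e480000000000000000064a0000000000000000024b0000000000000000004b40000000000000000003680000000000000000016c0) (nat_lit 32)
    (DL.cons (nat_lit 0x2c0000000003000000000600000000014000000002480000000068000000004a000000002c00000000030000000005000000000140000000018) (nat_lit 16)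
    (DL.cons (nat_lit 0x28000200000200004000040000480001000028000200000200004000040000480001000028000200000200004000040000800001000028000100004) (nat_lit 8)
    (DL.cons (nat_lit 0x2000000040000100402000000040000100402000000040000100402000000040000100402000000040000100402000010080400100402000010080402) (nat_lit 4)
    (DL.cons (nat_lit 0x20004020400020004020004020400020004020004020400020004020004020400020004020004020400020004020004000004000004020004000004020) (nat_lit 2)
    (DL.cons (nat_lit 0x80800080008080000080800080008080000080800080008080000080800080008080000080800080008080000080800000800080000080800000800080) (nat_lit 1)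
    DL.nil)))))))))⟩

theorem g5a : cG 5 cg5a bs5a.dc = true := by decide +kernel
theorem w5a_0 : rgC (cW 5 cg5a up5a) 0 0 = true := by decide +kernel
theorem w5a_1 : rgC (cW 5 cg5a up5a) 1 0 = true := by decide +kernel
theorem w5a_2 : rgC (cW 5 cg5a up5a) 2 0 = true := by decide +kernel
theorem w5a_3 : rgC (cW 5 cg5a up5a) 3 0 = true := by decide +kernel
theorem w5a_4 : rgC (cW 5 cg5a up5a) 4 1 = true := by decide +kernel
theorem w5a_6 : rgC (cW 5 cg5a up5a) 6 1 = true := by decide +kernel
theorem w5a_8 : rgC (cW 5 cg5a up5a) 8 2 = true := by decide +kernel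
theorem w5a_11 : rgC (cW 5 cg5a up5a) 11 4 = true := by decide +kernel
theorem w5a_16 : rgC (cW 5 cg5a up5a) 16 11 = true := by decide +kernel
theorem w5a_28 : rgC (cW 5 cg5a up5a) 28 11 = true := by decide +kernel
theorem w5a_40 : rgC (cW 5 cg5a up5a) 40 4 = true := by decide +kernel

theorem rW5a : Rg (cW 5 cg5a up5a) 0 45 :=
  .cons 0 0 w5a_0 <|
  .cons 1 0 w5a_1 <|
  .cons 2 0 w5a_2 <|
  .cons 3 0 w5a_3 <|
  .cons 4 1 w5a_4 <|
  .cons 6 1 w5a_6 <|
  .cons 8 2 w5a_8 <|
  .cons 11 4 w5a_11 <|
  .cons 16 11 w5a_16 <|
  .cons 28 11 w5a_28 <|
  .cons 40 4 w5a_40 <|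
  .nil _ _

theorem tabW5a [Fact (Nat.Prime 3)] : TabW 5 cg5a bs5a.dc bs5a.up :=
  tabW_of g5a rW5a (by decide +kernel)

end Vale.Agent.P236JM
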