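import Vale.Agent.P236JB.Tab
import Vale.Agent.P236JM.B5b

/-!
# P236JM : checks of the tables of bytes (generated)
-/

set_option maxRecDepth 100000

namespace Vale.Agent.P236JM

open Vale.Agent.P236KE Vale.Agent.P236JL Vale.Agent.P236JB

noncomputable def cg5b : CG := ⟨(nat_lit 62), (nat_lit 0xe0e0e0e0e0d0d0d0d0d0d0c0c0c0c0c0c0c0b0b0b0b0b0b0b0a0a0a0a0a0a0a090909090909090808080808080808070707070707070707060606060606),
  (nat_lit 0x302010000040302010000040302010100000403020101000004030201010000040302010100000504030201010000050403020201010000050403020201),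
  (nat_lit 0x100000000000100000000010001000000000100010000000001000100000000010001000000000001000100000000010001000100000000010001), (nat_lit 106),
  (DL.cons (nat_lit 0x49724b92dc80000000000000000000) (nat_lit 256)
    (DL.cons (nat_lit 0x16e4b725b90000000000) (nat_lit 128)
    (DL.cons (nat_lit 0x49724800000000000000000000000000000000000016e4b000000000000000000000000000000000000025b9280000) (nat_lit 64)
    (DL.cons (nat_lit 0x49400000000000000000039280000000000000000016c00000000000000000072500000000000000000025a0000000000000000005b000) (nat_lit 32)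
    (DL.cons (nat_lit 0x40000000003000000000038000000000500000000014000000002480000000070000000000a0000000002500000000190000000005800000000920) (nat_lit 16)
    (DL.cons (nat_lit 0x900002000024000030000100000400008000010000280002000002000040000200000800010000020000080001000002000050000200009000008) (nat_lit 8)
    (DL.cons (nat_lit 0x80000001002000802000010020000100804001004020000000400001004020000040000001008000004000000100800000804000000100800000804) (nat_lit 4)
    (DL.cons (nat_lit 0x40000040200020400020000000200040000040000040200040204000200040200020400000200000002040000020000000200040000020000000200040) (nat_lit 2)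
    (DL.cons (nat_lit 0x800000800080008080008000808000008000800000808000800080800000800080000080800080008000008080008000808000008080008000808000) (nat_lit 1)
    DL.nil)))))))))⟩

theorem g5b : cG 5 cg5b bs5b.dc = true := by decide +kernel
theorem w5b_0 : rgC (cW 5 cg5b up5b) 0 0 = true := by decide +kernel
theorem w5b_1 : rgC (cW 5 cg5b up5b) 1 0 = true := by decide +kernel
theorem w5b_2 : rgC (cW 5 cg5b up5b) 2 0 = true := by decide +kernel
theorem w5b_3 : rgC (cW 5 cg5b up5b) 3 0 = true := by decide +kernel
theorem w5b_4 : rgC (cW 5 cg5b up5b) 4 1 = true := by decide +kernel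
theorem w5b_6 : rgC (cW 5 cg5b up5b) 6 1 = true := by decide +kernel
theorem w5b_8 : rgC (cW 5 cg5b up5b) 8 2 = true := by decide +kernel
theorem w5b_11 : rgC (cW 5 cg5b up5b) 11 4 = true := by decide +kernel
theorem w5b_16 : rgC (cW 5 cg5b up5b) 16 11 = true := by decide +kernel
theorem w5b_28 : rgC (cW 5 cg5b up5b) 28 11 = true := by decide +kernel
theorem w5b_40 : rgC (cW 5 cg5b up5b) 40 4 = true := by decide +kernel

theorem rW5b : Rg (cW 5 cg5b up5b) 0 45 :=
  .cons 0 0 w5b_0 <|
  .cons 1 0 w5b_1 <|
  .cons 2 0 w5b_2 <|
  .cons 3 0 w5b_3 <|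
  .cons 4 1 w5b_4 <|
  .cons 6 1 w5b_6 <|
  .cons 8 2 w5b_8 <|
  .cons 11 4 w5b_11 <|
  .cons 16 11 w5b_16 <|
  .cons 28 11 w5b_28 <|
  .cons 40 4 w5b_40 <|
  .nil _ _

theorem tabW5b [Fact (Nat.Prime 3)] : TabW 5 cg5b bs5b.dc bs5b.up :=
  tabW_of g5b rW5b (by decide +kernel)

end Vale.Agent.P236JM
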