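import Vale.Agent.P236JB.Tab
import Vale.Agent.P236JM.B5c

/-!
# P236JM : checks of the tables of bytes (generated)
-/

set_option maxRecDepth 100000

namespace Vale.Agent.P236JM

open Vale.Agent.P236KE Vale.Agent.P236JL Vale.Agent.P236JB

noncomputable def cg5c : CG := ⟨(nat_lit 62), (nat_lit 0x2b2a2928272625242322212120201f1f1e1e1d1d1c1c1b1b1a1a191918181717161615151514141413131312121212111111111110101010100f0f0f0f0f),
  (nat_lit 0x1000100010001000100010001000100010001000100010002010002010002010003020100030201000003020100000302010000),
  (nat_lit 0x10000000001000000000100), (nat_lit 225),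
  (DL.cons (nat_lit 0x7ff333200000000000000000000000) (nat_lit 256)
    (DL.cons (nat_lit 0x133333333264800000000000) (nat_lit 128)
    (DL.cons (nat_lit 0x7f80000000000000000000000000000000000013333300000000000000000000000000000000000000499264a00000) (nat_lit 64)
    (DL.cons (nat_lit 0x70000000000000000073000000000000000000133000000000000000000033200000000000000000004990000000000000000000192800) (nat_lit 32)
    (DL.cons (nat_lit 0x400000000c000000006000000000300000000013000000000320000000003000000000124000000000490000000002600000000019000000000640) (nat_lit 16)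
    (DL.cons (nat_lit 0x2000080003000040001000002000030000100000200003000010000020000300001000002000004000008000024000048000100000200004000008) (nat_lit 8)
    (DL.cons (nat_lit 0x1008040200000000100200001002000010020000100200001002000010020000100200000400000800001002000004000010080000080402000802) (nat_lit 4)
    (DL.cons (nat_lit 0x40200000402000004020002000200020002000200020002000200020002000200020002040204000400000000020402040002000000020004020400020) (nat_lit 2)
    (DL.cons (nat_lit 0x800080008000800080008000800080008000800080008000800080008000800080008000800080008000800080008000808000800080800080008080) (nat_lit 1)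
    DL.nil)))))))))⟩

theorem g5c : cG 5 cg5c bs5c.dc = true := by decide +kernel
theorem w5c_0 : rgC (cW 5 cg5c up5c) 0 0 = true := by decide +kernel
theorem w5c_1 : rgC (cW 5 cg5c up5c) 1 0 = true := by decide +kernel
theorem w5c_2 : rgC (cW 5 cg5c up5c) 2 0 = true := by decide +kernel
theorem w5c_3 : rgC (cW 5 cg5c up5c) 3 0 = true := by decide +kernel
theorem w5c_4 : rgC (cW 5 cg5c up5c) 4 1 = true := by decide +kernel
theorem w5c_6 : rgC (cW 5 cg5c up5c) 6 1 = true := by decide +kernel
theorem w5c_8 : rgC (cW 5 cg5c up5c) 8 2 = true := by decide +kernel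
theorem w5c_11 : rgC (cW 5 cg5c up5c) 11 4 = true := by decide +kernel
theorem w5c_16 : rgC (cW 5 cg5c up5c) 16 11 = true := by decide +kernel
theorem w5c_28 : rgC (cW 5 cg5c up5c) 28 11 = true := by decide +kernel
theorem w5c_40 : rgC (cW 5 cg5c up5c) 40 4 = true := by decide +kernel

theorem rW5c : Rg (cW 5 cg5c up5c) 0 45 :=
  .cons 0 0 w5c_0 <|
  .cons 1 0 w5c_1 <|
  .cons 2 0 w5c_2 <|
  .cons 3 0 w5c_3 <|
  .cons 4 1 w5c_4 <|
  .cons 6 1 w5c_6 <|
  .cons 8 2 w5c_8 <|
  .cons 11 4 w5c_11 <|
  .cons 16 11 w5c_16 <|
  .cons 28 11 w5c_28 <|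
  .cons 40 4 w5c_40 <|
  .nil _ _

theorem tabW5c [Fact (Nat.Prime 3)] : TabW 5 cg5c bs5c.dc bs5c.up :=
  tabW_of g5c rW5c (by decide +kernel)

end Vale.Agent.P236JM
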