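import Vale.Agent.P236JB.Tab
import Vale.Agent.P236JM.B6a

/-!
# P236JM : checks of the tables of bytes (generated)
-/

set_option maxRecDepth 100000

namespace Vale.Agent.P236JM

open Vale.Agent.P236KE Vale.Agent.P236JL Vale.Agent.P236JB

noncomputable def cg6a : CG := ⟨(nat_lit 80), (nat_lit 0x808080808070707070707070706060606060606060605050505050505050504040404040404040403030303030303030302020202020202020201010101010101010101000000000000000000000000),
  (nat_lit 0x201010000050403020101000005040302020101000005040302020101000005040302020101000005040302020101000005040302020101000006050403020201010000060504030302020101000000),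
  (nat_lit 0x1000100000000000100010000000001000100010000000001000100010000000001000100010000000001000100010000000001000100010000000000010001000100000000010001000100020100), (nat_lit 0),
  (DL.cons (nat_lit 0x16e496e4b6e4b6e4b6800000000000000000) (nat_lit 256)
    (DL.cons (nat_lit 0x16e496e4b000000000000000000000000000000000000000000000000000000000000000000000000064b6e4b6e000000000) (nat_lit 128)
    (DL.cons (nat_lit 0x16e480000000000000000000000000000000000006e4b400000000000000000000000000000000000064b6c000000000000000000000000000000000000496dc8000) (nat_lit 64)
    (DL.cons (nat_lit 0x1400000000000000000016c0000000000000000006e0000000000000000002e480000000000000000064a0000000000000000024b00000000000000000049680000000000000000016c0) (nat_lit 32)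
    (DL.cons (nat_lit 0x2c00000000014000000002480000000068000000004a000000002c000000000300000000060000000001400000000248000000006800000000490000000005000000000140000000018) (nat_lit 16)
    (DL.cons (nat_lit 0x100002800020000010000280002000002000040000400004800010000280002000002000040000400004800010000280002000002000040000400004800004000040000800001000028000100004) (nat_lit 8)
    (DL.cons (nat_lit 0x10040200000004001004020000000400001004020000000400001004020000000400001004020000000400001004020000000400001004020000000400100402000010080400100402000010080402) (nat_lit 4)
    (DL.cons (nat_lit 0x402000402040000040200040204000200040200040204000200040200040204000200040200040204000200040200040204000200040200040204000004020004000004000004020004000004020) (nat_lit 2)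
    (DL.cons (nat_lit 0x8080008000800000808000800080800000808000800080800000808000800080800000808000800080800000808000800080800000808000800080000080800000800080000080800000800080) (nat_lit 1)
    DL.nil)))))))))⟩

theorem g6a : cG 6 cg6a bs6a.dc = true := by decide +kernel
theorem w6a_0 : rgC (cW 6 cg6a up6a) 0 0 = true := by decide +kernel
theorem w6a_1 : rgC (cW 6 cg6a up6a) 1 1 = true := by decide +kernel
theorem w6a_3 : rgC (cW 6 cg6a up6a) 3 1 = true := by decide +kernel
theorem w6a_5 : rgC (cW 6 cg6a up6a) 5 2 = true := by decide +kernel
theorem w6a_8 : rgC (cW 6 cg6a up6a) 8 4 = true := by decide +kernel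
theorem w6a_13 : rgC (cW 6 cg6a up6a) 13 11 = true := by decide +kernel
theorem w6a_25 : rgC (cW 6 cg6a up6a) 25 11 = true := by decide +kernel
theorem w6a_37 : rgC (cW 6 cg6a up6a) 37 6 = true := by decide +kernel

theorem rW6a : Rg (cW 6 cg6a up6a) 0 44 :=
  .cons 0 0 w6a_0 <|
  .cons 1 1 w6a_1 <|
  .cons 3 1 w6a_3 <|
  .cons 5 2 w6a_5 <|
  .cons 8 4 w6a_8 <|
  .cons 13 11 w6a_13 <|
  .cons 25 11 w6a_25 <|
  .cons 37 6 w6a_37 <|
  .nil _ _

theorem tabW6a [Fact (Nat.Prime 3)] : TabW 6 cg6a bs6a.dc bs6a.up :=
  tabW_of g6a rW6a (by decide +kernel)

end Vale.Agent.P236JM
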