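import Vale.Agent.P236JB.Tab
import Vale.Agent.P236JM.B6b

/-!
# P236JM : checks of the tables of bytes (generated)
-/

set_option maxRecDepth 100000

namespace Vale.Agent.P236JM

open Vale.Agent.P236KE Vale.Agent.P236JL Vale.Agent.P236JB

noncomputable def cg6b : CG := ⟨(nat_lit 79), (nat_lit 0x2827262524232221201f1e1d1d1c1c1b1b1a1a19191818171716161515141413131212121111111010100f0f0f0e0e0e0e0d0d0d0d0d0c0c0c0c0c0b0b0b0b0b0a0a0a0a0a0a090909090909090808),
  (nat_lit 0x100010001000100010001000100010001000100010002010002010002010002010003020100030201000003020100000302010000040302010000040302010100000403),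
  (nat_lit 0x10000000001000000000100000000000100000000010001000000), (nat_lit 143),
  (DL.cons (nat_lit 0x1ffe66666666666400000000000000000000000) (nat_lit 256)
    (DL.cons (nat_lit 0x1ffe4000000000000000000000000000000000000000000000000000000000000000000000000000c993264992e480000000000) (nat_lit 128)
    (DL.cons (nat_lit 0x1e000000000000000000000000000000000026666600000000000000000000000000000000000000c9932600000000000000000000000000000000000000392e4900000) (nat_lit 64)
    (DL.cons (nat_lit 0x1f0000000000000000026640000000000000000006640000000000000000000c9900000000000000000004992000000000000000000392800000000000000000072500) (nat_lit 32)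
    (DL.cons (nat_lit 0x1800000001800000000c0000000026000000000240000000006400000000260000000000c800000000030000000000490000000000c000000000380000000006000000000070000000000a0) (nat_lit 16)
    (DL.cons (nat_lit 0x10000400010000400008000200002400004000020000240000400002000024000040000080000100000200002400004800009000008000240000300001000004000048000040000200000800010) (nat_lit 8)
    (DL.cons (nat_lit 0x1008040200000000040200000402000004020000040200000402000004020008040010080000100200000400100800000804020008020000100200000004001004020000040000001008) (nat_lit 4)
    (DL.cons (nat_lit 0x40200000402000004020402040204020402040204020402040204020402040204000400000000020002040204000000000200040204000200000002000402040000040200020400000200000) (nat_lit 2)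
    (DL.cons (nat_lit 0x8000800080008000800080008000800080008000800080008000800080008000800080008000800080008000800080008000808000800080800080008080008000800000800080000080800080) (nat_lit 1)
    DL.nil)))))))))⟩

theorem g6b : cG 6 cg6b bs6b.dc = true := by decide +kernel
theorem w6b_0 : rgC (cW 6 cg6b up6b) 0 0 = true := by decide +kernel
theorem w6b_1 : rgC (cW 6 cg6b up6b) 1 1 = true := by decide +kernel
theorem w6b_3 : rgC (cW 6 cg6b up6b) 3 1 = true := by decide +kernel
theorem w6b_5 : rgC (cW 6 cg6b up6b) 5 2 = true := by decide +kernel
theorem w6b_8 : rgC (cW 6 cg6b up6b) 8 4 = true := by decide +kernel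
theorem w6b_13 : rgC (cW 6 cg6b up6b) 13 11 = true := by decide +kernel
theorem w6b_25 : rgC (cW 6 cg6b up6b) 25 11 = true := by decide +kernel
theorem w6b_37 : rgC (cW 6 cg6b up6b) 37 6 = true := by decide +kernel

theorem rW6b : Rg (cW 6 cg6b up6b) 0 44 :=
  .cons 0 0 w6b_0 <|
  .cons 1 1 w6b_1 <|
  .cons 3 1 w6b_3 <|
  .cons 5 2 w6b_5 <|
  .cons 8 4 w6b_8 <|
  .cons 13 11 w6b_13 <|
  .cons 25 11 w6b_25 <|
  .cons 37 6 w6b_37 <|
  .nil _ _

theorem tabW6b [Fact (Nat.Prime 3)] : TabW 6 cg6b bs6b.dc bs6b.up :=
  tabW_of g6b rW6b (by decide +kernel)

end Vale.Agent.P236JM
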