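import Vale.Agent.P236JB.Tab
import Vale.Agent.P236JM.B8a

/-!
# P236JM : checks of the tables of bytes (generated)
-/

set_option maxRecDepth 100000

namespace Vale.Agent.P236JM

open Vale.Agent.P236KE Vale.Agent.P236JL Vale.Agent.P236JB

noncomputable def cg8a : CG := ⟨(nat_lit 78), (nat_lit 0x90909080808080808080707070707070706060606060606050505050505050505040404040404040404030303030303030303020202020202020202010101010101010101000000000000000000),
  (nat_lit 0x10000040302010100000403020101000004030201010000050403020201010000050403020201010000050403020201010000050403020201010000050403020201010000050403020201010000),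
  (nat_lit 0x100000000010001000000000100010000000001000100000000010001000100000000010001000100000000010001000100000000010001000100000000010001000100000000010001000100), (nat_lit 0),
  (DL.cons (nat_lit 0x5c96e4b725b92db92800000000000000000) (nat_lit 256)
    (DL.cons (nat_lit 0x5c96e4b400000000000000000000000000000000000000000000000000000000000000000000000005b92db92d000000000) (nat_lit 128)
    (DL.cons (nat_lit 0x5c9000000000000000000000000000000000000325b900000000000000000000000000000000000005b92c000000000000000000000000000000000000b92d80000) (nat_lit 64)
    (DL.cons (nat_lit 0x6c0000000000000000003250000000000000000002d80000000000000000005b0000000000000000001b8000000000000000000b900000000000000000039280) (nat_lit 32)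
    (DL.cons (nat_lit 0x580000000006000000002480000000030000000000b0000000002c000000003800000000050000000009000000000180000000012800000000b0000000002c000000003800000000050) (nat_lit 16)
    (DL.cons (nat_lit 0x5000040000040000800024000030000200002400008000080000280001000030000100000400008000080000280001000030000100000400008000080000280001000030000100000400008) (nat_lit 8)
    (DL.cons (nat_lit 0x400000008000000080402000802000000100200100802000010020000100802000010020000100802000010020000100802000010020000100802000010020000100802000010020000100802) (nat_lit 4)
    (DL.cons (nat_lit 0x4000004000004020004020400020004020002040000020000000200040000020000000200040000020000000200040000020000000200040000020000000200040000020000000200040000020) (nat_lit 2)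
    (DL.cons (nat_lit 0x800080000080800080008080000080008000008080008000808000008080008000808000008080008000808000008080008000808000008080008000808000008080008000808000008080) (nat_lit 1)
    DL.nil)))))))))⟩

theorem g8a : cG 8 cg8a bs8a.dc = true := by decide +kernel
theorem w8a_0 : rgC (cW 8 cg8a up8a) 0 1 = true := by decide +kernel
theorem w8a_2 : rgC (cW 8 cg8a up8a) 2 1 = true := by decide +kernel
theorem w8a_4 : rgC (cW 8 cg8a up8a) 4 2 = true := by decide +kernel
theorem w8a_7 : rgC (cW 8 cg8a up8a) 7 7 = true := by decide +kernel
theorem w8a_15 : rgC (cW 8 cg8a up8a) 15 11 = true := by decide +kernel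
theorem w8a_27 : rgC (cW 8 cg8a up8a) 27 11 = true := by decide +kernel
theorem w8a_39 : rgC (cW 8 cg8a up8a) 39 0 = true := by decide +kernel

theorem rW8a : Rg (cW 8 cg8a up8a) 0 40 :=
  .cons 0 1 w8a_0 <|
  .cons 2 1 w8a_2 <|
  .cons 4 2 w8a_4 <|
  .cons 7 7 w8a_7 <|
  .cons 15 11 w8a_15 <|
  .cons 27 11 w8a_27 <|
  .cons 39 0 w8a_39 <|
  .nil _ _

theorem tabW8a [Fact (Nat.Prime 3)] : TabW 8 cg8a bs8a.dc bs8a.up :=
  tabW_of g8a rW8a (by decide +kernel)

end Vale.Agent.P236JM
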