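import Vale.Agent.P236JB.Tab
import Vale.Agent.P236JM.B8b

/-!
# P236JM : checks of the tables of bytes (generated)
-/

set_option maxRecDepth 100000

namespace Vale.Agent.P236JM

open Vale.Agent.P236KE Vale.Agent.P236JL Vale.Agent.P236JB

noncomputable def cg8b : CG := ⟨(nat_lit 77), (nat_lit 0x2a29282726252423222120201f1f1e1e1d1d1c1c1b1b1a1a19191818171716161515151414141313131212121111111010100f0f0f0e0e0e0d0d0d0c0c0c0c0b0b0b0b0b0a0a0a0a0a09090909),
  (nat_lit 0x1000100010001000100010001000100010001000100020100020100020100020100020100020100020100020100020100030201000302010000030201000004030201),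
  (nat_lit 0x100000000010000000001), (nat_lit 139),
  (DL.cons (nat_lit 0xffe666666666640000000000000000000000000) (nat_lit 256)
    (DL.cons (nat_lit 0xffc0000000000000000000000000000000000000000000000000000000000000000000000000024c993264c9930000000000000) (nat_lit 128)
    (DL.cons (nat_lit 0x8000000000000000000000000000000000266666000000000000000000000000000000000000024c993200000000000000000000000000000000000000264c932400000) (nat_lit 64)
    (DL.cons (nat_lit 0x7c0000000000000000266400000000000000000066400000000000000000024c9000000000000000000064c8000000000000000000264c00000000000000000001c9000) (nat_lit 32)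
    (DL.cons (nat_lit 0x70000000030000000026000000000240000000006400000000260000000002480000000009000000000064000000000190000000002600000000009200000000018000000000700) (nat_lit 16)
    (DL.cons (nat_lit 0x400008000200008000240000400002000024000040000200002400004000020000040000080000300000400000800001000002000024000048000090000100000100004800004000020) (nat_lit 8)
    (DL.cons (nat_lit 0x8040200000000100804020000040200000402000004020000040200000402000004000008000010020000040200080400100800001002000004000008000010020010080400100402000004) (nat_lit 4)
    (DL.cons (nat_lit 0x402000004020000040204020402040204020402040204020402040204020402040004000000000200020402040004000000000200020402040004000002000204000004000004020002040) (nat_lit 2)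
    (DL.cons (nat_lit 0x80008000800080008000800080008000800080008000800080008000800080008000800080008000800080008000800080008000800080008000800080008000800000800080000080008000) (nat_lit 1)
    DL.nil)))))))))⟩

theorem g8b : cG 8 cg8b bs8b.dc = true := by decide +kernel
theorem w8b_0 : rgC (cW 8 cg8b up8b) 0 1 = true := by decide +kernel
theorem w8b_2 : rgC (cW 8 cg8b up8b) 2 1 = true := by decide +kernel
theorem w8b_4 : rgC (cW 8 cg8b up8b) 4 2 = true := by decide +kernel
theorem w8b_7 : rgC (cW 8 cg8b up8b) 7 7 = true := by decide +kernel
theorem w8b_15 : rgC (cW 8 cg8b up8b) 15 11 = true := by decide +kernel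
theorem w8b_27 : rgC (cW 8 cg8b up8b) 27 11 = true := by decide +kernel
theorem w8b_39 : rgC (cW 8 cg8b up8b) 39 0 = true := by decide +kernel

theorem rW8b : Rg (cW 8 cg8b up8b) 0 40 :=
  .cons 0 1 w8b_0 <|
  .cons 2 1 w8b_2 <|
  .cons 4 2 w8b_4 <|
  .cons 7 7 w8b_7 <|
  .cons 15 11 w8b_15 <|
  .cons 27 11 w8b_27 <|
  .cons 39 0 w8b_39 <|
  .nil _ _

theorem tabW8b [Fact (Nat.Prime 3)] : TabW 8 cg8b bs8b.dc bs8b.up :=
  tabW_of g8b rW8b (by decide +kernel)

end Vale.Agent.P236JM
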